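import Crest.Agent.X212.Dgr80.Win
import Crest.Agent.X212.Nka63.A
import Crest.Agent.X212.Dgr80.Tk

-- ▼ part X212/Dgr80/E1a
section

/-!
# Row 212, DGR (helper80): functions of time localised near two points
-/

set_option autoImplicit false
set_option linter.unusedSectionVars false
noncomputable section
open scoped Topology ContDiff
open MeasureTheory Set Filter Real

namespace Crest.Agent.X212.Dgr80
open Nd18 Nka63

variable {δ ε a a' C L s t u : ℝ} {f c : ℝ → ℝ}

/-- two windows -/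
def lz (ε a a' s : ℝ) : ℝ := b ε (s - a) + b ε (s - a')

theorem lz_pos (hε : 0 < ε) : 0 < lz ε a a' s := add_pos (b_pos hε _) (b_pos hε _)

theorem one_le_lz (hε : 0 < ε) (h : |s - a| ≤ u ∨ |s - a'| ≤ u) :
    1 ≤ 4 / ε * exp (ε * u) * lz ε a a' s := by
  have k : ∀ {a}, |s - a| ≤ u → 1 ≤ 4 / ε * exp (ε * u) * b ε (s - a) := fun {a} h => by
    refine le_trans ?_ (mul_le_mul_of_nonneg_left (b_ge hε _) (by positivity))
    rw [show 4 / ε * exp (ε * u) * (ε / 4 * exp (-(ε * |s - a|))) =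
      exp (ε * u) * exp (-(ε * |s - a|)) by field_simp, ← exp_add]
    exact one_le_exp (by nlinarith)
  have p : 0 ≤ 4 / ε * exp (ε * u) := by positivity
  rcases h with h | h
  · exact (k h).trans (mul_le_mul_of_nonneg_left (le_add_of_nonneg_right (b_pos hε _).le) p)
  · exact (k h).trans (mul_le_mul_of_nonneg_left (le_add_of_nonneg_left (b_pos hε _).le) p)

theorem int_of_lz (hε : 0 < ε) (hf : AEStronglyMeasurable f volume)
    (h : ∀ s, |f s| ≤ C * lz ε a a' s) : Integrable f ∧ ∫ s, |f s| ≤ 2 * C := by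
  have i := fun a => (integrable_b hε).comp_sub_right a
  have i2 : Integrable fun s => C * lz ε a a' s := ((i a).add (i a')).const_mul C
  have k := i2.mono' hf (.of_forall h)
  refine ⟨k, (integral_mono k.abs i2 h).trans_eq ?_⟩
  simp only [lz, integral_const_mul, integral_add (i a) (i a'), integral_sub_right_eq_self (b ε),
    integral_b hε]
  ring

/-- bounded functions supported near the two points -/
theorem lz_of_bd (hε : 0 < ε) (h : ∀ s, |f s| ≤ C) (k : ∀ s, f s ≠ 0 → |s - a| ≤ u ∨ |s - a'| ≤ u)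
    (s : ℝ) : |f s| ≤ C * (4 / ε * exp (ε * u)) * lz ε a a' s := by
  have p := (abs_nonneg _).trans (h s)
  rw [mul_assoc]
  by_cases e : f s = 0
  · rw [e, abs_zero]; exact mul_nonneg p (mul_nonneg (by positivity) (lz_pos hε).le)
  · exact (h s).trans (le_mul_of_one_le_right p (one_le_lz hε (k s e)))

theorem int_of_bd (hf : Continuous f) (h : ∀ s, |f s| ≤ C)
    (k : ∀ s, f s ≠ 0 → |s - a| ≤ 2 ∨ |s - a'| ≤ 2) : Integrable f ∧ ∫ s, |f s| ≤ 80 * C := by
  have := int_of_lz one_pos hf.aestronglyMeasurable (lz_of_bd one_pos h k)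
  refine ⟨this.1, this.2.trans ?_⟩
  have e : exp (1 * 2) ≤ 10 := by
    rw [one_mul, ← one_add_one_eq_two, exp_add]; nlinarith [exp_one_lt_d9, exp_pos 1]
  generalize exp (1 * 2) = x at e ⊢
  linarith [mul_le_mul_of_nonneg_left e ((abs_nonneg _).trans (h 0))]

theorem bd_one_neg (δ s : ℝ) : bd δ 1 (-s) = -bd δ 1 s := by
  have h := (hasDerivAt_bd δ 0 (-s)).comp s (hasDerivAt_neg s)
  rw [show bd δ 0 ∘ Neg.neg = bd δ 0 from funext fun x => by simp [bd_zero, b_neg]] at h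
  linarith [h.unique (hasDerivAt_bd δ 0 s)]

/-- the derivative of the convolution -/
def cv1 (δ : ℝ) (c : ℝ → ℝ) (s : ℝ) : ℝ := ∫ t, c t * bd δ 1 (s - t)

theorem cv1_eq (c : ℝ → ℝ) : cv1 δ c = wnd volume id δ 1 c := funext fun s => by
  simp only [cv1, wnd, id, smul_eq_mul]
  congr 1; funext t; rw [← neg_sub t, bd_one_neg]; ring

theorem hasDerivAt_cv (hδ : 0 < δ) (hc : Continuous c) (hC : ∀ t, |c t| ≤ L) (s : ℝ) :
    HasDerivAt (cv δ c) (cv1 δ c s) s := by
  rw [cv_eq_wn, cv1_eq]; exact (wi_of_bdd hδ hc.aestronglyMeasurable hC).hasDerivAt_wn hδ s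

theorem continuous_cv1 (hδ : 0 < δ) (hc : Continuous c) (hC : ∀ t, |c t| ≤ L) :
    Continuous (cv1 δ c) := by
  rw [cv1_eq]; exact ((wi_of_bdd hδ hc.aestronglyMeasurable hC).contDiff_wnd hδ 1).continuous

/-- Fubini -/
theorem WI.fub {M : Type*} [MeasurableSpace M] {μ : Measure M} [SFinite μ] {τ h : M → ℝ}
    (hδ : 0 < δ) (hh : WI μ τ δ h) (hc : Continuous c) (hs : HasCompactSupport c) :
    Integrable (fun x => cv1 δ c (τ x) * h x) μ ∧
      ∫ x, cv1 δ c (τ x) * h x ∂μ = -∫ t, c t * wnd μ τ δ 1 h t := by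
  have i : Integrable (fun z : M × ℝ => c z.2 * bd δ 1 (τ z.1 - z.2) * h z.1) (μ.prod volume) := by
    have i1 : Integrable fun t => |c t| * (δ * exp (δ * |t|)) :=
      Continuous.integrable_of_hasCompactSupport (by fun_prop) hs.abs.mul_right
    refine (hh.i.mul_prod i1).mono' ((hc.aestronglyMeasurable.comp_snd.mul
      ((continuous_bd δ 1).comp_aestronglyMeasurable (hh.τm.comp_fst.sub
        measurable_snd.aestronglyMeasurable))).mul hh.m.comp_fst) (.of_forall fun z => ?_)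
    have k := (abs_bd_one_le hδ (τ z.1 - z.2)).trans
      (mul_le_mul_of_nonneg_left (b_add_le hδ (τ z.1) (-z.2)) hδ.le)
    rw [abs_neg] at k
    rw [norm_mul, norm_mul]
    exact (mul_le_mul_of_nonneg_right (mul_le_mul_of_nonneg_left k (norm_nonneg _))
      (norm_nonneg _)).trans_eq (by rw [Real.norm_eq_abs]; ring)
  have e : ∀ x, cv1 δ c (τ x) * h x = ∫ t, c t * bd δ 1 (τ x - t) * h x := fun x => by
    rw [cv1, integral_mul_const]
  simp only [e]
  refine ⟨i.integral_prod_left, (integral_integral_swap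
    (f := fun x t => c t * bd δ 1 (τ x - t) * h x) i).trans ?_⟩
  rw [← integral_neg]
  congr 1; funext t
  rw [wnd, ← integral_const_mul, ← integral_neg]
  congr 1; funext x; simp only [smul_eq_mul]; ring

/-- the commutator of a cut-off with the convolution -/
theorem comm_lz (hδ : 0 < δ) (hc : Continuous c) (hC : ∀ t, |c t| ≤ L) {θ : ℝ → ℝ}
    (hθ : Continuous θ) (h1 : ∀ t, θ t ∈ Icc (0 : ℝ) 1)
    (h2 : ∀ s t, θ s ≠ θ t → |s - a| ≤ |s - t| + 1 ∨ |s - a'| ≤ |s - t| + 1) (s : ℝ) :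
    |θ s * cv1 δ c s - cv1 δ (fun t => θ t * c t) s| ≤
      L * (64 * exp (δ / 2)) * lz (δ / 2) a a' s := by
  have h0 := half_pos hδ
  have L0 := (abs_nonneg _).trans (hC 0)
  have m := ((continuous_bd δ 1).comp (continuous_const.sub continuous_id) :
    Continuous fun t => bd δ 1 (s - t))
  have i0 : Integrable fun t => bd δ 1 (s - t) := ((integrable_b_sub hδ s).const_mul δ).mono'
    m.aestronglyMeasurable (.of_forall fun t => abs_bd_one_le hδ _)
  have i1 := i0.bdd_mul hc.aestronglyMeasurable (.of_forall hC)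
  have i2 := i0.bdd_mul (hθ.fun_mul hc).aestronglyMeasurable (c := L) (.of_forall fun t => by
    rw [norm_mul, Real.norm_of_nonneg (h1 t).1]
    exact (mul_le_of_le_one_left (norm_nonneg _) (h1 t).2).trans (hC t))
  rw [cv1, cv1, ← integral_const_mul, ← integral_sub (i1.const_mul _) i2,
    ← mul_one (_ * lz _ _ _ _), ← integral_b_sub h0 s, ← integral_const_mul]
  refine (Real.norm_eq_abs _).symm.trans_le (norm_integral_le_of_norm_le
    ((integrable_b_sub h0 s).const_mul _) (.of_forall fun t => ?_))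
  have p := lz_pos (a := a) (a' := a') (s := s) h0
  have p' := b_pos h0 (s - t)
  by_cases e : θ s = θ t
  · rw [e, mul_assoc, sub_self, norm_zero]; positivity
  have k1 := one_le_lz h0 (h2 s t e)
  have k2 : |θ s - θ t| ≤ 1 := abs_le.2 ⟨by linarith [(h1 s).1, (h1 t).2],
    by linarith [(h1 s).2, (h1 t).1]⟩
  have k3 := (abs_bd_one_le hδ (s - t)).trans (mul_le_mul_of_nonneg_left (b_le_exp hδ _) hδ.le)
  have k4 := b_ge h0 (s - t)
  rw [show θ s * (c t * bd δ 1 (s - t)) - θ t * c t * bd δ 1 (s - t) =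
    c t * ((θ s - θ t) * bd δ 1 (s - t)) by ring, norm_mul, norm_mul, mul_assoc, mul_assoc]
  refine mul_le_mul (hC t) ((mul_le_mul (k2.trans k1) k3 (abs_nonneg _) (by positivity)).trans ?_)
    (by positivity) L0
  refine le_trans (le_of_eq ?_) (mul_le_mul_of_nonneg_left (mul_le_mul_of_nonneg_left k4 p.le)
    (by positivity))
  rw [show -(δ * |s - t|) = -(δ / 2 * |s - t|) + -(δ / 2 * |s - t|) by ring, mul_add, mul_one,
    exp_add, exp_add, exp_neg]
  field_simp
  ring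

/-! ### the cut-off functions -/

theorem st_ne (h : smoothTransition s ≠ smoothTransition t) : |s| ≤ |s - t| + 1 := by
  have h1 : 0 < s ∨ 0 < t := by
    by_contra! e
    exact h (by rw [smoothTransition.zero_of_nonpos e.1, smoothTransition.zero_of_nonpos e.2])
  have h2 : s < 1 ∨ t < 1 := by
    by_contra! e
    exact h (by rw [smoothTransition.one_of_one_le e.1, smoothTransition.one_of_one_le e.2])
  have := le_abs_self (s - t)
  have := neg_abs_le (s - t)
  rcases h1 with h1 | h1 <;> rcases h2 with h2 | h2 <;> rw [abs_le] <;> constructor <;>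
    linarith [abs_nonneg (s - t)]

theorem ct_ne (h : ct (some a) (some a') 3 s ≠ ct (some a) (some a') 3 t) :
    |s - (a + 3)| ≤ |s - t| + 1 ∨ |s - (a' - 3)| ≤ |s - t| + 1 := by
  by_contra! e
  refine h ?_
  simp only [ct, Option.elim_some]
  congr 1 <;> by_contra k <;> have := st_ne k
  · rw [show s - a - 3 - (t - a - 3) = s - t by ring, sub_sub] at this; linarith [e.1]
  · rw [show a' - s - 3 - (a' - t - 3) = -(s - t) by ring, show a' - s - 3 = -(s - (a' - 3)) by ring,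
      abs_neg, abs_neg] at this
    linarith [e.2]

theorem near_of (h : s ∈ Dp (some a) (some a') 2) (k : s ∉ Dq (some a) (some a') 5) :
    |s - (a + 3)| ≤ 2 ∨ |s - (a' - 3)| ≤ 2 := by
  have h1 := h.1 a rfl
  have h2 := h.2 a' rfl
  simp only [mem_Dq, Option.mem_def, Option.some.injEq, forall_eq', not_and_or, not_lt] at k
  exact k.imp (fun k => abs_le.2 ⟨by linarith, by linarith⟩) fun k =>
    abs_le.2 ⟨by linarith, by linarith⟩

end Crest.Agent.X212.Dgr80
end
end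

-- ▼ part X212/Dgr80/E1b

/-!
# Row 212, DGR (helper80): the work of the neck terms, pointwise; cut-off functions of time
-/

set_option autoImplicit false
set_option linter.unusedSectionVars false
noncomputable section
open scoped Manifold ContDiff Topology InnerProductSpace Classical
open MeasureTheory Set Function Filter

namespace Crest.Agent.X212.Dgr80
open An Wz78 Nd18 Cyf70 Nka63

variable {E : Type} [NormedAddCommGroup E] [NormedSpace ℝ E] [FiniteDimensional ℝ E]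
  [MeasurableSpace E] [BorelSpace E]
  {HM : Type} [TopologicalSpace HM] {I : ModelWithCorners ℝ E HM}
  {M : Type} [TopologicalSpace M] [ChartedSpace HM M] [IsManifold I ∞ M]
  [MeasurableSpace M] [T2Space M] [BorelSpace M] {lam : Type} [Fintype lam] {r n : ℕ}

namespace PN
variable {ι : Type} [Fintype ι] [DecidableEq ι] {B : Base M ι lam} {G : Geo I M ι lam} {c : Cfg M ι lam r}
  {τ : M → ℝ} {a₀ : ι} {O : Set M} {x : M} (P : PN B G τ a₀ O) (A : c.Adm B G)
include P A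

theorem cT_cT (hx : x ∈ O) (v : c.m.V) : cT G.F c τ x (cT G.F c τ x v) = -c.m.p x v := by
  have h := (A.ok.cl x).rel a₀ a₀
  rw [P.BP hx, if_pos rfl, mul_one, ← two_smul ℝ, neg_smul, ← smul_neg] at h
  rw [P.toPrd.cT_eq c hx, ← mul_apply_eq_comp, smul_right_injective _ two_ne_zero h, neg_apply]

theorem norm_cT (hx : x ∈ O) (v : c.m.V) : ‖cT G.F c τ x v‖ ≤ ‖v‖ := by
  have h1 := P.cT_cT A hx v
  rw [P.toPrd.cT_eq c hx] at h1 ⊢
  have h2 := A.ok.ρsk a₀ x v (c.m.ρ a₀ x v)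
  have h3 := A.ok.psym x v (c.m.p x v)
  rw [← mul_apply_eq_comp, A.ok.pidem, real_inner_self_eq_norm_sq] at h3
  rw [h1, real_inner_self_eq_norm_sq, inner_neg_right, neg_neg] at h2
  have h4 := real_inner_le_norm v (c.m.p x v)
  exact (abs_le_of_sq_le_sq' (by nlinarith [sq_nonneg (‖v‖ - ‖c.m.p x v‖)]) (norm_nonneg _)).2

theorem p2_oT (hx : x ∈ O) (b : ι) :
    c.m.p2 B x (oT G.F τ x (xA G.F c τ x)) (a₀, b) = (4⁻¹ : ℝ) • xA G.F c τ x b := by
  have o : ∀ l, B.o a₀ b a₀ l x = 0 := fun l => by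
    linarith [P.hB.o12 a₀ b a₀ l x, P.hB.o23 b a₀ a₀ l x]
  have e : ∀ l, B.sd x (a₀, b) (a₀, l) = 4⁻¹ * B.P b l x - if l = a₀ then 4⁻¹ * B.P b a₀ x else 0 :=
    fun l => by simp only [Base.sd, Base.a2, Base.st, o, P.BP hx]; split_ifs <;> ring
  rw [Md.p2, idx_apply, Fintype.sum_prod_type, Finset.sum_comm]
  simp only [oT, map_smul, smul_comm (B.sd x _ _), P.toPrd.sum_dτ hx, e, pg_of_mem (P.xA_mem A x _),
    sub_smul, ite_smul, zero_smul, Finset.sum_sub_distrib, Finset.sum_ite_eq', Finset.mem_univ,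
    if_true, P.xA0 A hx, smul_zero, sub_zero, mul_smul, ← Finset.smul_sum, P.xA_proj A hx]

/-- the work of the gradient term -/
theorem wk_q1 {J : Type} [Fintype J] [DecidableEq J] (N : DG M ι lam r J) (e : N.τ = τ)
    (hx : x ∈ O) : wk G.F c τ (N.q1 B G.F : Pt M ι lam r n) x =
      -(⟪xA G.F c τ x, N.gA G.F c x⟫_ℝ + ⟪xP G.F c τ x, N.gP G.F c x⟫_ℝ) := by
  subst e
  have h1 : (N.q1 B G.F : Pt M ι lam r n).D c x = -cT G.F c N.τ x (c.m.pp B x (N.gP G.F c x)) := by
    simp [DG.q1, cT]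
  have h2 : (N.q1 B G.F : Pt M ι lam r n).C c x =
      (-8 : ℝ) • c.m.p2 B x (oT G.F N.τ x (N.gA G.F c x)) := rfl
  rw [wk, h1, h2, map_neg, P.cT_cT A hx, neg_neg, ← mul_apply_eq_comp, p_pp A.ok, pp_sym P.hB A.ok,
    P.pp_xP A hx, real_inner_smul_left, inner_p2 P.hB, real_inner_comm, P.toPrd.inner_oT hx,
    real_inner_comm (xP _ _ _ _), PiLp.inner_apply (xA _ _ _ _)]
  simp only [P.p2_oT A hx, real_inner_smul_left, ← Finset.mul_sum]
  ring

theorem wk_le (hx : x ∈ O) (v : c.m.V) (η : Fm (ι × ι) c.m.A) :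
    |⟪η, oT G.F τ x (xA G.F c τ x)⟫_ℝ / 2 - ⟪cT G.F c τ x v, xP G.F c τ x⟫_ℝ| ≤
      en G.F c τ x / 4 + (‖v‖ ^ 2 + ‖η‖ ^ 2) := by
  have h1 := abs_le.1 (abs_real_inner_le_norm η (oT G.F τ x (xA G.F c τ x)))
  have h2 := abs_le.1 ((abs_real_inner_le_norm (cT G.F c τ x v) (xP G.F c τ x)).trans
    (mul_le_mul_of_nonneg_right (P.norm_cT A hx v) (norm_nonneg _)))
  rw [P.toPrd.norm_oT hx] at h1
  have h3 := sq_nonneg (‖η‖ - ‖xA G.F c τ x‖ / 4)
  have h4 := sq_nonneg (‖v‖ - ‖xP G.F c τ x‖ / 2)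
  rw [en, abs_le]
  constructor <;> linarith [h1.1, h1.2, h2.1, h2.2]

end PN

/-! ### cut-off functions -/

section time
variable {p q : Option ℝ} {a a' d s : ℝ} {f : ℝ → ℝ}

/-- `(a, a') ⊆ (p, q)` -/
def Sb (p q : Option ℝ) (a a' : ℝ) : Prop := (∀ x ∈ p, x ≤ a) ∧ ∀ y ∈ q, a' ≤ y

theorem Sb.dp (h : Sb p q a a') : Dp (some a) (some a') d ⊆ Dp p q d := fun _ k =>
  ⟨fun x hx => by linarith [h.1 x hx, k.1 a rfl], fun x hx => by linarith [h.2 x hx, k.2 a' rfl]⟩

theorem deriv_off {Z : Set ℝ} (hZ : IsClosed Z) (h : ∀ s ∉ Z, f s = 0) : ∀ s ∉ Z, deriv f s = 0 :=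
  fun _ hs => by
    rw [EventuallyEq.deriv_eq (f := fun _ => (0 : ℝ)) (mem_of_superset (hZ.isOpen_compl.mem_nhds hs) h),
      deriv_const]

/-- a bound for the cut-off functions and two derivatives -/
def cA : ℝ := 1 + bd_ct.choose 2

theorem ct_le (i : ℕ) (hi : i ≤ 2 := by omega) : |iteratedDeriv i (ct p q d) s| ≤ cA :=
  ((bd_ct.choose_spec p q d).2 2 i hi s).trans (le_add_of_nonneg_left zero_le_one)

theorem one_le_cA : 1 ≤ cA := le_add_of_nonneg_right ((bd_ct.choose_spec none none 0).nonneg 2)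

theorem dct_le : |deriv (ct p q d) s| ≤ cA := iteratedDeriv_one (f := ct p q d) ▸ ct_le 1

/-- the cut-off -/
abbrev θc (a a' : ℝ) : ℝ → ℝ := ct (some a) (some a') 3

/-- the dominating function -/
def ζc (a a' s : ℝ) : ℝ := cA * (ct (some a) (some a') 2 s - ct (some a) (some a') 4 s)

/-- the boundary layer -/
def Zc (a a' d d' : ℝ) : Set ℝ := Dp (some a) (some a') d \ Dq (some a) (some a') d'

theorem isClosed_Zc {d' : ℝ} : IsClosed (Zc a a' d d') := isClosed_Dp.sdiff isOpen_Dq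

theorem Zc_sub : Zc a a' 3 4 ⊆ Zc a a' 2 5 :=
  sdiff_subset_sdiff (Dp_mono (by norm_num)) (Dq_mono (by norm_num))

theorem dθ_off : ∀ s ∉ Zc a a' 3 4, deriv (θc a a') s = 0 := fun s hs => by
  by_cases h : s ∈ Dp (some a) (some a') 3
  · exact dct_zero (by norm_num; exact by_contra fun e => hs ⟨h, e⟩)
  · exact deriv_off isClosed_Dp (fun _ => ct_zero) s h

theorem sm_ζc : ContDiff ℝ ∞ (ζc a a') := contDiff_const.mul (contDiff_ct.sub contDiff_ct)

theorem ζc_off : ∀ s ∉ Zc a a' 2 5, ζc a a' s = 0 := fun s hs => by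
  by_cases h : s ∈ Dp (some a) (some a') 2
  · have k : s ∈ Dp (some a) (some a') 5 := Dq_sub_Dp (by_contra fun e => hs ⟨h, e⟩)
    rw [ζc, ct_one (Dp_mono (by norm_num) k), ct_one (Dp_mono (by norm_num) k), sub_self, mul_zero]
  · rw [ζc, ct_zero h, ct_zero fun e => h (Dp_mono (by norm_num) e), sub_self, mul_zero]

theorem le_ζc (h : ∀ s ∉ Zc a a' 3 4, f s = 0) (k : |f s| ≤ cA) : |f s| ≤ ζc a a' s ^ 2 := by
  by_cases hs : s ∈ Zc a a' 3 4
  · rw [ζc, ct_one (Dp_mono (by norm_num) hs.1), ct_zero' hs.2, sub_zero, mul_one]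
    exact k.trans (le_self_pow₀ one_le_cA two_ne_zero)
  · rw [h s hs, abs_zero]; exact sq_nonneg _

theorem int_Zc (hf : Continuous f) {C : ℝ} (h : ∀ s, |f s| ≤ C) (k : ∀ s ∉ Zc a a' 2 5, f s = 0) :
    Integrable f ∧ ∫ s, |f s| ≤ 80 * C :=
  int_of_bd hf h fun s hs => let e := by_contra fun e => hs (k s e); near_of e.1 e.2

theorem cd_deriv (hf : ContDiff ℝ ∞ f) : ContDiff ℝ ∞ (deriv f) := (contDiff_infty_iff_deriv.1 hf).2

theorem ζc_le : |ζc a a' s ^ 2 + deriv (ζc a a') s ^ 2| ≤ 8 * cA ^ 4 := by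
  have d : ∀ d, HasDerivAt (ct (some a) (some a') d) (deriv (ct (some a) (some a') d) s) s :=
    fun _ => (contDiff_ct.differentiable (by simp) s).hasDerivAt
  have k : ∀ x y : ℝ, |x| ≤ cA → |y| ≤ cA → (cA * (x - y)) ^ 2 ≤ 4 * cA ^ 4 := fun x y hx hy => by
    have := pow_le_pow_left₀ (abs_nonneg _) ((abs_sub x y).trans (add_le_add hx hy)) 2
    rw [sq_abs] at this
    nlinarith [mul_le_mul_of_nonneg_left this (sq_nonneg cA)]
  rw [abs_of_nonneg (by positivity), show deriv (ζc a a') s = _ from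
    (((d 2).sub (d 4)).const_mul cA).deriv]
  linarith [k _ _ (dct_le (p := some a) (q := some a') (d := 2) (s := s))
    (dct_le (p := some a) (q := some a') (d := 4) (s := s)),
    show ζc a a' s ^ 2 ≤ _ from k _ _ (ct_le 0) (ct_le 0)]

end time

variable {E3 : Type} [NormedAddCommGroup E3] [NormedSpace ℝ E3] [FiniteDimensional ℝ E3]
  [MeasurableSpace E3] [BorelSpace E3]
  {H3 : Type} [TopologicalSpace H3] {I3 : ModelWithCorners ℝ E3 H3} [I3.Boundaryless]
  {Y : Type} [TopologicalSpace Y] [ChartedSpace H3 Y] [IsManifold I3 ∞ Y] [T2Space Y]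
  [MeasurableSpace Y] [BorelSpace Y] [SecondCountableTopology Y] [CompactSpace Y]
  {κ : Type} [Fintype κ] {D : YD I3 Y κ lam} {B : Base M (Option κ) lam}
  {G : Geo I M (Option κ) lam} (K : Nk D B G) {g : ℝ → ℝ} {a a' d : ℝ} {x : M}

theorem tm_eq (h : K.τ x ∈ Dp K.p K.q 2) : K.χ x = 1 ∧ x ∈ O K 1 ∧ K.τ x = K.tm x := by
  have h1 : K.χ x = 1 := by rw [χ_eq]; exact ct_one (by norm_num; exact h)
  have h2 := mem_O_of_χ K (h1.trans_ne one_ne_zero)
  exact ⟨h1, h2, τ_eq K h2⟩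

theorem D_time0 (hg : ContDiff ℝ ∞ g) (h : ∀ s ∉ Dp K.p K.q 2, g s = 0) :
    G.F.D none (fun x => g (K.τ x)) = fun x => deriv g (K.τ x) := funext fun x => by
  by_cases e : K.τ x ∈ Dp K.p K.q 2
  · exact D_time_none' K hg (tm_eq K e).2.1
  · rw [D_time_none K hg, deriv_off isClosed_Dp h _ e, smul_zero]

theorem int_time (hg : Integrable g) (h : ∀ s ∉ Dp K.p K.q 2, g s = 0) :
    LB G.F.μ (fun x => |g (K.τ x)|) (vY D * ∫ s, |g s|) := by
  have e : (fun x => |g (K.τ x)|) = fun x => |g (K.τ x)| * K.χ x := funext fun x => by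
    by_cases e : K.τ x ∈ Dp K.p K.q 2
    · rw [(tm_eq K e).1, mul_one]
    · rw [h _ e, abs_zero, zero_mul]
  rw [e]
  exact ⟨integrable_time_χ K hg.abs, integral_time_χ_le K hg.abs fun _ => abs_nonneg _⟩

variable {K} (S : Sb K.p K.q a a')
include S

theorem Sb.off (hd : 2 ≤ d) (h : ∀ s ∉ Dp (some a) (some a') d, g s = 0) :
    ∀ s ∉ Dp K.p K.q 2, g s = 0 := fun s hs => h s fun e => hs (Dp_mono hd (S.dp e))

theorem Sb.ts (hg : ContDiff ℝ ∞ g) (hd : 2 ≤ d) {d' : ℝ} (hd' : d' < d)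
    (h : ∀ s ∉ Dp (some a) (some a') d, g s = 0) : Ts I (O K d') fun x => g (K.τ x) := by
  have e : Icc (a + d) (a' - d) ⊆ Dp K.p K.q d := fun s hs => S.dp
    ⟨fun _ k => Option.some.inj k ▸ hs.1, fun _ k => Option.some.inj k ▸ hs.2⟩
  have c := isCompact_slab K (e.trans (Dp_sub (by linarith)))
  have t : tsupport (fun x => g (K.τ x)) ⊆ K.tm ⁻¹' Icc (a + d) (a' - d) :=
    closure_minimal (fun x hx => by
      have k : K.τ x ∈ Dp (some a) (some a') d := by_contra fun e => hx (h _ e)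
      rw [mem_preimage, ← (tm_eq K (Dp_mono hd (S.dp k))).2.2]
      exact ⟨k.1 a rfl, k.2 a' rfl⟩) c.isClosed
  exact ⟨sm_time K hg, c.of_isClosed_subset (isClosed_tsupport _) t,
    t.trans (preimage_mono (e.trans (Dp_sub_Dq hd')))⟩

theorem Sb.offZ {d' : ℝ} (hd : 2 ≤ d) (h : ∀ s ∉ Zc a a' d d', g s = 0) :
    ∀ s ∉ Dp K.p K.q 2, g s = 0 := S.off hd fun s hs => h s fun e => hs e.1

theorem Sb.Dθ : G.F.D none (fun x => θc a a' (K.τ x)) = fun x => deriv (θc a a') (K.τ x) :=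
  D_time0 K contDiff_ct (S.off (d := 3) (by norm_num) fun _ => ct_zero)

theorem Sb.DDθ : G.F.D none (fun x => deriv (θc a a') (K.τ x)) =
    fun x => deriv (deriv (θc a a')) (K.τ x) :=
  D_time0 K (cd_deriv contDiff_ct) (S.offZ (by norm_num) dθ_off)

theorem Sb.tf : Tf G.F none (O K 2) (fun x => θc a a' (K.τ x)) fun x => ζc a a' (K.τ x) := by
  have t := S.ts (I := I) sm_ζc le_rfl one_lt_two fun s hs => ζc_off s fun e => hs e.1
  refine ⟨S.ts contDiff_ct (d := 3) (by norm_num) (by norm_num) fun _ => ct_zero,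
    D_time_ne K contDiff_ct, ⟨t.sm, t.hc, subset_univ _⟩, fun x => ?_, fun x => ?_⟩
  · rw [S.Dθ]; exact le_ζc dθ_off dct_le
  · rw [S.Dθ, S.DDθ]
    exact le_ζc (deriv_off isClosed_Zc dθ_off) (by simpa [iteratedDeriv_succ] using ct_le 2)

theorem Sb.lbZ (hg : Continuous g) {C : ℝ} (h : ∀ s, |g s| ≤ C) (k : ∀ s ∉ Zc a a' 2 5, g s = 0) :
    LB G.F.μ (fun x => |g (K.τ x)|) (vY D * (80 * C)) :=
  have := int_Zc hg h k
  (int_time K this.1 (S.offZ le_rfl k)).le (mul_le_mul_of_nonneg_left this.2 (vY_nonneg D))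

theorem Sb.nz : nz G.F (fun x => ζc a a' (K.τ x)) ≤ vY D * (80 * (8 * cA ^ 4)) := by
  refine le_trans (le_of_eq ?_) (S.lbZ (G := G) (g := fun s => ζc a a' s ^ 2 + deriv (ζc a a') s ^ 2)
    ((sm_ζc.continuous.pow 2).add
    ((cd_deriv sm_ζc).continuous.pow 2)) (fun _ => ζc_le) fun s hs => by
      simp [ζc_off s hs, deriv_off isClosed_Zc ζc_off s hs]).2
  rw [Dgr80.nz]
  congr 1; funext x
  beta_reduce
  rw [abs_of_nonneg (by positivity), Fintype.sum_option, D_time0 K sm_ζc (S.offZ le_rfl ζc_off)]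
  simp [D_time_some K sm_ζc]

end Crest.Agent.X212.Dgr80
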