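import Crest.Agent.X212.Dgr80.E1b

-- ▼ part X212/Dgr80/E1c
section

/-!
# Row 212, DGR (helper80): the total work of the gradient term on a neck is bounded
-/

set_option autoImplicit false
set_option linter.unusedSectionVars false
noncomputable section
open scoped Manifold ContDiff Topology InnerProductSpace Classical
open MeasureTheory Set Function Filter

namespace Crest.Agent.X212.Dgr80
open An Wz78 Nd18 Cyf70 Nka63

theorem Sb.ibp {p q : Option ℝ} {a a' L : ℝ} (S : Sb p q a a') {ψ ψ' : ℝ → ℝ}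
    (h : ∀ t, HasDerivAt ψ (ψ' t) t) (hc : Continuous ψ') (hL : ∀ t, |ψ t| ≤ L) :
    |∫ t, θc a a' t * (ct p q 3 t * ψ' t)| ≤ 80 * (2 * cA * L) := by
  have d : ∀ p q t, HasDerivAt (ct p q 3) (deriv (ct p q 3) t) t :=
    fun _ _ t => (contDiff_ct.differentiable (by simp) t).hasDerivAt
  have c0 := fun p q => (contDiff_ct (p := p) (q := q) (d := 3)).continuous
  have c1 := fun p q => (cd_deriv (contDiff_ct (p := p) (q := q) (d := 3))).continuous
  have c2 : Continuous ψ := continuous_iff_continuousAt.2 fun t => (h t).continuousAt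
  have s : HasCompactSupport (θc a a') := (isCompact_Icc (a := a + 3) (b := a' - 3)).of_isClosed_subset
    (isClosed_tsupport _) (tsupport_ct.trans fun s hs => ⟨hs.1 a rfl, hs.2 a' rfl⟩)
  have m : ∀ p q t, |ct p q 3 t| ≤ 1 := fun _ _ _ => (abs_of_nonneg ct_mem.1).trans_le ct_mem.2
  have i1 := int_Zc (a := a) (a' := a') (f := fun t => (deriv (θc a a') t * ct p q 3 t +
      θc a a' t * deriv (ct p q 3) t) * ψ t) (C := 2 * cA * L)
    ((((c1 _ _).mul (c0 _ _)).add ((c0 _ _).mul (c1 _ _))).mul c2) (fun t => ?_) fun t ht => ?_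
  · have i2 : Integrable fun t => θc a a' t * (ct p q 3 t * ψ' t) :=
      ((c0 _ _).mul ((c0 _ _).mul hc)).integrable_of_hasCompactSupport s.mul_right
    have e := integral_eq_zero_of_hasDerivAt_of_integrable
      (fun t => (((d (some a) (some a') t).fun_mul (d p q t)).fun_mul (h t)))
      ((i1.1.add i2).congr (.of_forall fun t => by simp only [Pi.add_apply]; ring))
      ((((c0 _ _).mul (c0 _ _)).mul c2).integrable_of_hasCompactSupport s.mul_right.mul_right)
    simp only [mul_assoc (θc a a' _)] at e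
    rw [integral_add i1.1 i2, add_eq_zero_iff_neg_eq] at e
    rw [← e, abs_neg]
    exact abs_integral_le_integral_abs.trans i1.2
  · rw [abs_mul]
    refine mul_le_mul ((abs_add_le _ _).trans ?_) (hL t) (abs_nonneg _) (by linarith [one_le_cA])
    rw [abs_mul, abs_mul, two_mul]
    exact add_le_add ((mul_le_of_le_one_right (abs_nonneg _) (m _ _ _)).trans dct_le)
      ((mul_le_of_le_one_left (abs_nonneg _) (m _ _ _)).trans dct_le)
  · have k : t ∉ Zc a a' 3 4 := fun e => ht (Zc_sub e)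
    rw [dθ_off t k, zero_mul, zero_add]
    by_cases e : t ∈ Dp (some a) (some a') 3
    · have k' : t ∈ Dq (some a) (some a') 4 := by_contra fun e' => k ⟨e, e'⟩
      obtain ⟨_, h1, h2⟩ := exists_Dp k'
      rw [dct_zero (Dp_sub_Dq (by linarith) (S.dp h2)), mul_zero, zero_mul]
    · rw [show θc a a' t = 0 from ct_zero e, zero_mul, zero_mul]

variable {E : Type} [NormedAddCommGroup E] [NormedSpace ℝ E] [FiniteDimensional ℝ E]
  [MeasurableSpace E] [BorelSpace E]
  {HM : Type} [TopologicalSpace HM] {I : ModelWithCorners ℝ E HM} [I.Boundaryless]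
  {M : Type} [TopologicalSpace M] [ChartedSpace HM M] [IsManifold I ∞ M]
  [MeasurableSpace M] [T2Space M] [BorelSpace M] [SecondCountableTopology M]
  {lam : Type} [Fintype lam] {r n : ℕ}
  {E3 : Type} [NormedAddCommGroup E3] [NormedSpace ℝ E3] [FiniteDimensional ℝ E3]
  [MeasurableSpace E3] [BorelSpace E3]
  {H3 : Type} [TopologicalSpace H3] {I3 : ModelWithCorners ℝ E3 H3} [I3.Boundaryless]
  {Y : Type} [TopologicalSpace Y] [ChartedSpace H3 Y] [IsManifold I3 ∞ Y] [T2Space Y]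
  [MeasurableSpace Y] [BorelSpace Y] [SecondCountableTopology Y] [CompactSpace Y]
  {κ : Type} [Fintype κ] {D : YD I3 Y κ lam} {B : Base M (Option κ) lam}
  {G : Geo I M (Option κ) lam} {K : Nk D B G} {a a' δ k L : ℝ}
  {U P : Type} [NormedAddCommGroup U] [InnerProductSpace ℝ U] [CompleteSpace U]
  [NormedAddCommGroup P] [InnerProductSpace ℝ P] {α : M → Fm (Option κ) U} {φ : M → P}

theorem sfin {ι : Type} [Fintype ι] (F : Pre I M ι) : SFinite F.μ :=
  have := Manifold.locallyCompact_of_finiteDimensional (M := M) I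
  inferInstance

theorem cb_cv (hδ : 0 < δ) {c : ℝ → ℝ} (hc : Continuous c) (hL : ∀ t, |c t| ≤ L) :
    G.F.Cb fun x => cv δ c (K.τ x) :=
  have h := cv_bounds hδ hc.aestronglyMeasurable hL
  cb_time K (C := fun k => ∑ i ∈ Finset.range (k + 1), cb δ i * L) h.1 fun _ i hi t =>
    (h.2.2 i t).trans (Finset.single_le_sum (f := fun i => cb δ i * L) (fun _ _ => mul_nonneg
      (cb_nonneg _ _) ((abs_nonneg _).trans (hL 0))) (Finset.mem_range_succ_iff.2 hi))

/-- the constant of one density -/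
def cW (δ k L : ℝ) : ℝ := k * ((L ^ 2 + 1) * (640 * cA ^ 4) + L * (80 * cA + 128 * Real.exp (δ / 2)))

variable (S : Sb K.p K.q a a') (dv : ∀ x ∈ O K 2, G.F.dv none x = 0) (hδ : 0 < δ)
include S dv hδ

theorem Sb.work1 {d : RD M (Option κ) U P} (h : RD.Tr G.F none (O K 2) α φ k d)
    (h0 : ∀ x ∉ K.dp 1, d.h x = 0) {c : ℝ → ℝ} (hc : Continuous c) (hL : ∀ t, |c t| ≤ L)
    (k0 : 0 ≤ k) : |∫ x, θc a a' (K.τ x) * (⟪α x, d.gA (fun y => cv δ c (K.τ y)) x⟫_ℝ +
      ⟪φ x, d.gP (fun y => cv δ c (K.τ y)) x⟫_ℝ) ∂G.F.μ -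
      ∫ t, θc a a' t * c t * wnd G.F.μ K.τ δ 1 d.h t| ≤ cW δ k L * vY D := by
  have β := cv_bounds hδ hc.aestronglyMeasurable hL
  have L0 := (abs_nonneg _).trans (hL 0)
  have := sfin G.F.toPre
  have e1 := h.tr _ L _ _ (cb_cv (K := K) hδ hc hL) (fun x => β.2.1 _) S.tf
  have c0 := (contDiff_ct (p := some a) (q := some a') (d := 3))
  have z : ∀ s ∉ Dp (some a) (some a') 3, θc a a' s * cv δ c s = 0 := fun s hs =>
    mul_eq_zero_of_left (ct_zero hs) _
  have t1 := S.ts (I := I) (c0.mul β.1) (d := 3) (by norm_num) (by norm_num : (2 : ℝ) < 3) z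
  have m := h.sm.continuous.aestronglyMeasurable (μ := G.F.μ)
  have hθ : ∀ t, |θc a a' t * c t| ≤ L := fun t => (abs_mul _ _).trans_le
    ((mul_le_of_le_one_left (abs_nonneg _) ((abs_of_nonneg ct_mem.1).trans_le ct_mem.2)).trans (hL t))
  obtain ⟨i1, e2⟩ := (wi K hδ m h0 fun x _ => h.le x).fub hδ (c0.continuous.fun_mul hc)
    (HasCompactSupport.mul_right ((isCompact_Icc (a := a + 3) (b := a' - 3)).of_isClosed_subset
      (isClosed_tsupport _) (tsupport_ct.trans fun s hs => ⟨hs.1 a rfl, hs.2 a' rfl⟩)))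
  have c1 := (cd_deriv c0).continuous.fun_mul β.1.continuous
  have c2 := (c0.continuous.fun_mul (continuous_cv1 hδ hc hL)).fun_sub
    (continuous_cv1 hδ (c0.continuous.fun_mul hc) hθ)
  have j1 := int_Zc (a := a) (a' := a') c1 (C := cA * L) (fun s => (abs_mul _ _).trans_le
    (mul_le_mul dct_le (β.2.1 s) (abs_nonneg _) (by linarith [one_le_cA]))) fun s hs =>
      mul_eq_zero_of_left (dθ_off s fun e => hs (Zc_sub e)) _
  have j2 := int_of_lz (half_pos hδ) c2.aestronglyMeasurable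
    (comm_lz hδ hc hL c0.continuous (fun _ => ct_mem) fun _ _ => ct_ne)
  have i2 := integrable_time K j1.1 c1.measurable m h0 fun x _ => h.le x
  have i3 := integrable_time K j2.1 c2.measurable m h0 fun x _ => h.le x
  have n2 := norm_integral_time_le K j1.1 h0 fun x _ => h.le x
  have n3 := norm_integral_time_le K j2.1 h0 fun x _ => h.le x
  have i4 := (t1.mul (G.F.sm_D h.sm none)).int G.F
  have e3 := ibp0_fun (F := G.F) dv (t1.mul h.sm)
  have e4 : ∀ x, G.F.D none (fun x => θc a a' (K.τ x) * cv δ c (K.τ x) * d.h x) x =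
      (deriv (θc a a') (K.τ x) * cv δ c (K.τ x)) • d.h x + (θc a a' (K.τ x) * cv1 δ c (K.τ x) -
        cv1 δ (fun t => θc a a' t * c t) (K.τ x)) • d.h x +
        cv1 δ (fun t => θc a a' t * c t) (K.τ x) * d.h x +
        θc a a' (K.τ x) * cv δ c (K.τ x) * G.F.D none d.h x := fun x => by
    rw [Pre.D_def, dv_mul (t1.sm x) (h.sm x), ← Pre.D_def, ← Pre.D_def,
      D_time0 K (c0.mul β.1) (S.off (by norm_num) z)]
    beta_reduce
    rw [(((c0.differentiable (by simp) _).hasDerivAt).fun_mul (hasDerivAt_cv hδ hc hL _)).deriv,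
      smul_eq_mul, smul_eq_mul]
    ring
  simp only [e4] at e3
  rw [integral_add ((i2.fun_add i3).fun_add i1) i4, integral_add (i2.fun_add i3) i1,
    integral_add i2 i3, e2] at e3
  simp only [← mul_assoc (θc a a' _)] at e1
  rw [Real.norm_eq_abs, abs_of_nonneg k0] at n2 n3
  have v := vY_nonneg D
  have b1 := mul_le_mul_of_nonneg_left (mul_le_mul_of_nonneg_left (S.nz (G := G))
    (show 0 ≤ L ^ 2 + 1 by positivity)) k0
  have b2 := mul_le_mul_of_nonneg_left (mul_le_mul_of_nonneg_left j1.2 v) k0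
  have b3 := mul_le_mul_of_nonneg_left (mul_le_mul_of_nonneg_left j2.2 v) k0
  rw [abs_le] at e1 n2 n3 ⊢
  rw [cW]
  constructor <;> linarith [e1.1, e1.2, n2.1, n2.2, n3.1, n3.2]

omit S dv in
theorem co_bd {J : Type} [Fintype J] [DecidableEq J] {N : DG M (Option κ) lam r J}
    {c : Cfg M (Option κ) lam r} (eτ : N.τ = K.τ) (ec : N.cut = K.cut 3) (eδ : ∀ j, N.δ j = δ)
    (hm : ∀ j, Continuous ((N.d j).h c)) (hk : ∀ j x, |(N.d j).h c x| ≤ k)
    (h0 : ∀ j, ∀ x ∉ K.dp 1, (N.d j).h c x = 0) (hφ : ContDiff ℝ ∞ N.φ)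
    (hL : ∀ x, ‖x‖ ≤ |k| * vY D → |N.φ x| ≤ L ∧ ‖fderiv ℝ N.φ x‖ ≤ L) :
    (∀ t, HasDerivAt (N.Iv G.F c) (fun j => wnd G.F.μ K.τ δ 1 ((N.d j).h c) t) t) ∧
    (∀ j, Continuous (wnd G.F.μ K.τ δ 1 ((N.d j).h c))) ∧ (∀ t, |N.φ (N.Iv G.F c t)| ≤ L) ∧
    ∀ j, Continuous (N.co G.F c j) ∧ ∀ t, |N.co G.F c j t| ≤ L := by
  have w := fun j => wi K hδ (hm j).aestronglyMeasurable (h0 j) fun x _ => hk j x
  have d : ∀ t, HasDerivAt (N.Iv G.F c) (fun j => wnd G.F.μ K.τ δ 1 ((N.d j).h c) t) t := fun t =>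
    hasDerivAt_pi.2 fun j => by simpa only [DG.Iv, eτ, eδ] using (w j).hasDerivAt_wn hδ t
  have e := fun t => hL (N.Iv G.F c t) ((pi_norm_le_iff_of_nonneg (mul_nonneg (abs_nonneg _)
    (vY_nonneg D))).2 fun j => by
      simpa only [DG.Iv, eτ, eδ] using norm_wn_le K hδ (h0 j) (fun x _ => hk j x) t)
  refine ⟨d, fun j => ((w j).contDiff_wnd hδ 1).continuous, fun t => (e t).1, fun j =>
    ⟨(show Continuous N.cut from ec ▸ contDiff_ct.continuous).mul (((hφ.continuous_fderiv (by simp)).comp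
      (continuous_iff_continuousAt.2 fun t => (d t).continuousAt)).clm_apply continuous_const),
      fun t => (abs_mul _ _).trans_le ((mul_le_of_le_one_left (abs_nonneg _)
        (ec ▸ (abs_of_nonneg ct_mem.1).trans_le ct_mem.2)).trans
          ((Real.norm_eq_abs _).symm.trans_le ((ContinuousLinearMap.le_opNorm _ _).trans ?_)))⟩⟩
  rw [Pi.norm_single, norm_one, mul_one]
  exact (e t).2

/-- the work of the gradient term -/
theorem Sb.work {J : Type} [Fintype J] [DecidableEq J] {N : DG M (Option κ) lam r J}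
    {c : Cfg M (Option κ) lam r} {α : M → Fm (Option κ) c.m.A} {φ : M → c.m.V} (sα : Sm I α)
    (sφ : Sm I φ) (eτ : N.τ = K.τ) (ec : N.cut = K.cut 3) (eδ : ∀ j, N.δ j = δ)
    (h : ∀ j, RD.Tr G.F none (O K 2) α φ k ((N.d j).rd c)) (k0 : 0 ≤ k)
    (h0 : ∀ j, ∀ x ∉ K.dp 1, (N.d j).h c x = 0) (hφ : ContDiff ℝ ∞ N.φ)
    (hL : ∀ x, ‖x‖ ≤ |k| * vY D → |N.φ x| ≤ L ∧ ‖fderiv ℝ N.φ x‖ ≤ L) :
    Integrable (fun x => θc a a' (K.τ x) * (⟪α x, N.gA G.F c x⟫_ℝ + ⟪φ x, N.gP G.F c x⟫_ℝ)) G.F.μ ∧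
    |∫ x, θc a a' (K.τ x) * (⟪α x, N.gA G.F c x⟫_ℝ + ⟪φ x, N.gP G.F c x⟫_ℝ) ∂G.F.μ| ≤
      Fintype.card J * (cW δ k L * vY D) + 80 * (2 * cA * L) := by
  obtain ⟨d, c1, b, hc⟩ := co_bd hδ eτ ec eδ (fun j => (h j).sm.continuous) (fun j => (h j).le) h0 hφ hL
  have cb := fun j => cb_cv (G := G) (K := K) hδ (hc j).1 (hc j).2
  have i := fun j => ((S.tf (G := G)).ts.mul
    (sm_pair sα ((h j).sA _ (cb j)) sφ ((h j).sP _ (cb j)))).int G.F
  have e : ∀ x, θc a a' (K.τ x) * (⟪α x, N.gA G.F c x⟫_ℝ + ⟪φ x, N.gP G.F c x⟫_ℝ) =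
      ∑ j, θc a a' (K.τ x) * (⟪α x, ((N.d j).rd c).gA (fun y => cv δ (N.co G.F c j) (K.τ y)) x⟫_ℝ +
        ⟪φ x, ((N.d j).rd c).gP (fun y => cv δ (N.co G.F c j) (K.τ y)) x⟫_ℝ) := fun x => by
    simp only [DG.gA, DG.gP, DG.β, eτ, eδ, inner_sum, ← Finset.sum_add_distrib, Finset.mul_sum, Den.rd]
  have cI : Continuous (N.Iv G.F c) := continuous_iff_continuousAt.2 fun t => (d t).continuousAt
  have e2 := S.ibp (fun t => ((hφ.differentiable (by simp) _).hasFDerivAt.comp_hasDerivAt t (d t)))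
    (((hφ.continuous_fderiv (by simp)).comp cI).clm_apply (continuous_pi c1)) b
  have e3 : ∀ t, θc a a' t * (ct K.p K.q 3 t * fderiv ℝ N.φ (N.Iv G.F c t)
      fun j => wnd G.F.μ K.τ δ 1 ((N.d j).h c) t) =
      ∑ j, θc a a' t * N.co G.F c j t * wnd G.F.μ K.τ δ 1 ((N.d j).h c) t := fun t => by
    rw [pi_eq_sum_univ' fun j => wnd G.F.μ K.τ δ 1 ((N.d j).h c) t, map_sum, Finset.mul_sum,
      Finset.mul_sum]
    exact Finset.sum_congr rfl fun j _ => by rw [map_smul, DG.co, ec, smul_eq_mul]; ring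
  simp only [e3] at e2
  rw [integral_finsetSum _ fun j _ => ((contDiff_ct.continuous.fun_mul (hc j).1).fun_mul
    (c1 j)).integrable_of_hasCompactSupport (HasCompactSupport.mul_right (HasCompactSupport.mul_right
      ((isCompact_Icc (a := a + 3) (b := a' - 3)).of_isClosed_subset (isClosed_tsupport _)
        (tsupport_ct.trans fun s hs => ⟨hs.1 a rfl, hs.2 a' rfl⟩))))] at e2
  have e4 := (Finset.abs_sum_le_sum_abs _ _).trans (Finset.sum_le_card_nsmul Finset.univ _ _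
    fun j _ => S.work1 dv hδ (h j) (h0 j) (hc j).1 (hc j).2 k0)
  rw [Finset.sum_sub_distrib, nsmul_eq_mul, Finset.card_univ] at e4
  simp only [e]
  rw [integral_finsetSum _ fun j _ => i j]
  refine ⟨integrable_finsetSum _ fun j _ => i j, ?_⟩
  rw [abs_le] at e2 e4 ⊢
  simp only [Den.rd] at e4 ⊢
  constructor <;> linarith [e2.1, e2.2, e4.1, e4.2]

end Crest.Agent.X212.Dgr80
end
end

-- ▼ part X212/Dgr80/E1d

/-!
# Row 212, DGR (helper80): the non-gradient terms are dominated by the energy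
-/

set_option autoImplicit false
set_option linter.unusedSectionVars false
noncomputable section
open scoped Manifold ContDiff Topology InnerProductSpace Classical
open MeasureTheory Set Function Filter

namespace Crest.Agent.X212.Dgr80
open An Wz78 Nd18 Cyf70 Nka63
open Mp86 (NK Mc)

theorem abs_nv (x : ℝ) : |x / √(1 + x ^ 2)| ≤ |x| ∧ |x / √(1 + x ^ 2)| ≤ 1 := by
  have h1 : 1 ≤ √(1 + x ^ 2) := Real.one_le_sqrt.2 (le_add_of_nonneg_right (sq_nonneg _))
  rw [abs_div, abs_of_nonneg (Real.sqrt_nonneg _)]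
  exact ⟨div_le_self (abs_nonneg _) h1, div_le_one_of_le₀
    (Real.abs_le_sqrt (le_add_of_nonneg_left zero_le_one)) (Real.sqrt_nonneg _)⟩

theorem norm_nrm {V : Type} [NormedAddCommGroup V] [InnerProductSpace ℝ V] (v : V) :
    ‖nrm v‖ ≤ 1 := by
  have := (abs_nv ‖v‖).2
  rwa [abs_div, abs_norm, div_eq_inv_mul, ← abs_inv, ← Real.norm_eq_abs, ← norm_smul] at this

theorem ct_getD {p q : Option ℝ} {a a' s : ℝ} : θc (p.getD a) (q.getD a') s ≤ ct p q 3 s := by
  have h0 := Real.smoothTransition.nonneg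
  have h1 := Real.smoothTransition.le_one
  cases p <;> cases q <;> simp only [θc, ct, Option.getD, Option.elim]
  exacts [mul_le_mul (h1 _) (h1 _) (h0 _) zero_le_one, mul_le_mul_of_nonneg_right (h1 _) (h0 _),
    mul_le_mul_of_nonneg_left (h1 _) (h0 _), le_rfl]

theorem ev_getD {p q : Option ℝ} (s : ℝ) :
    ∀ᶠ n : ℕ in atTop, θc (p.getD (-n)) (q.getD n) s = ct p q 3 s := by
  filter_upwards [Mp86.ev_nat (|s| + 4)] with n hn
  have h1 := Real.smoothTransition.one_of_one_le (x := s - -n - 3) (by linarith [neg_abs_le s])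
  have h2 := Real.smoothTransition.one_of_one_le (x := n - s - 3) (by linarith [le_abs_self s])
  cases p <;> cases q <;> simp only [θc, ct, Option.getD, Option.elim, h1, h2]

theorem sb_getD (p q : Option ℝ) (a a' : ℝ) : Sb p q (p.getD a) (q.getD a') :=
  ⟨fun _ h => by rw [Option.mem_def.1 h]; rfl, fun _ h => by rw [Option.mem_def.1 h]; rfl⟩

section gen
variable {E : Type} [NormedAddCommGroup E] [NormedSpace ℝ E] [FiniteDimensional ℝ E]
  [MeasurableSpace E] [BorelSpace E]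
  {HM : Type} [TopologicalSpace HM] {I : ModelWithCorners ℝ E HM}
  {M : Type} [TopologicalSpace M] [ChartedSpace HM M] [IsManifold I ∞ M]
  [MeasurableSpace M] [T2Space M] [BorelSpace M] {ι : Type} [Fintype ι] {F : Fr I M ι}
  {V : Type} [NormedAddCommGroup V] [InnerProductSpace ℝ V] {A : ι → M → CL V V} {ϖ : M → ℝ}

theorem Amb.lb_res (h : Amb F ϖ) (hA : Mc I A) {s : M → V} {a : ℝ}
    (hb : LB F.μ (fun x => ‖s x‖ ^ 2) a) : LB F.μ (fun x => ‖F.res A s x‖ ^ 2) (8 * a) := by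
  rcases Mp86.res_cases F A s with k | k
  · exact (h.wk_res hA wg_one k (by simpa only [one_mul] using hb)).mono
      (k.1.continuous.norm.pow 2).aestronglyMeasurable (fun _ => sq_nonneg _) fun x => by
        linarith [g2_nonneg (F := F) (A := A) (u := F.res A s) x]
  · have := hb.nonneg fun _ => sq_nonneg _
    rw [k.2]; exact ⟨by simp, by simpa using this⟩

theorem norm_fsum {W N : Type} [NormedAddCommGroup N] [NormedSpace ℝ N] {q : W →₀ ℝ} {f : W → N}
    {R : W → ℝ} {m k : ℝ} (hm : 0 ≤ m) (hk : 0 < k) (h : ∀ w, ‖f w‖ ≤ R w * m)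
    (hq : Sml (fun w => k * R w) q) : ‖q.sum fun w a => a • f w‖ ≤ k⁻¹ * m := by
  refine (norm_sum_le _ _).trans ((Finset.sum_le_sum fun w _ => (norm_smul _ _).trans_le
    (mul_le_mul_of_nonneg_left (h w) (norm_nonneg _))).trans ?_)
  refine le_trans (le_of_eq ?_) (mul_le_of_le_one_right (mul_nonneg (inv_pos.2 hk).le hm) hq.le)
  rw [Finsupp.sum, Finset.mul_sum]
  exact Finset.sum_congr rfl fun w _ => by rw [Real.norm_eq_abs]; field_simp

end gen

variable {E3 : Type} [NormedAddCommGroup E3] [NormedSpace ℝ E3] [FiniteDimensional ℝ E3]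
  [MeasurableSpace E3] [BorelSpace E3]
  {H3 : Type} [TopologicalSpace H3] {I3 : ModelWithCorners ℝ E3 H3} [I3.Boundaryless]
  {Y : Type} [TopologicalSpace Y] [ChartedSpace H3 Y] [IsManifold I3 ∞ Y] [T2Space Y]
  [MeasurableSpace Y] [BorelSpace Y] [SecondCountableTopology Y] [CompactSpace Y]
  {κ : Type} [Fintype κ] {lam : Type} [Fintype lam] {D : YD I3 Y κ lam} {S : ℝ} {r n : ℕ}
  {N : ND Y lam}

theorem exists_sk (T : YW I3 Y) : ∃ R, ∀ x, |T.1.C.k x| ≤ R := by
  obtain ⟨T, h⟩ := T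
  have : T.C.OK := by cases T <;> exact h.1
  exact (this.2 0).imp fun _ k x => by simpa using k x

/-- the size of a term -/
def sk (T : YW I3 Y) : ℝ := (exists_sk T).choose

/-- the non-gradient part of the neck perturbation -/
abbrev qq (N : ND Y lam) (X : NK D S) (q : YW I3 Y →₀ ℝ) (r n : ℕ) : Pt X.M (Option κ) lam r n :=
  fsum (fun T : YW I3 Y => N.q2 X.K T.1) q

/-- the smoothed energy at time `t` -/
abbrev eT (N : ND Y lam) (X : NK D S) (c : Cfg X.M (Option κ) lam r) : ℝ → ℝ :=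
  wn X.G.F.μ X.K.τ N.δ (N.ew X.K c)

variable (X : NK D S) {c : Cfg X.M (Option κ) lam r}

theorem qq_le (hδ : 0 < N.δ) (A : c.Adm X.B X.G) {k : ℝ} (hk : 1 ≤ k) {q : YW I3 Y →₀ ℝ}
    (hq : Sml (fun T => k * sk T) q) (x : X.M) : ‖(qq N X q r n).D c x‖ ≤ 1 ∧
      ‖(qq N X q r n).D c x‖ ^ 2 + ‖(qq N X q r n).C c x‖ ^ 2 ≤ 2 * k⁻¹ * eT N X c (X.K.τ x) := by
  have e0 := wn_nonneg (μ := X.G.F.μ) (τ := X.K.τ) hδ (Mp86.ct_ew (N := N) X A).2 (X.K.τ x)
  obtain ⟨h1, h2⟩ := abs_nv (eT N X c (X.K.τ x))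
  set m := |eT N X c (X.K.τ x) / √(1 + eT N X c (X.K.τ x) ^ 2)|
  have m0 : 0 ≤ m := abs_nonneg _
  have o : ∀ T : YW I3 Y, |N.oc X.K T.1 c x| ≤ sk T * m := fun T => by
    rw [ND.oc, abs_mul]
    refine (mul_le_of_le_one_left (abs_nonneg _) ((abs_of_nonneg ct_mem.1).trans_le ct_mem.2)).trans
      ((abs_mul _ _).trans_le ((mul_comm _ _).trans_le (mul_le_mul ((exists_sk T).choose_spec _)
        ((abs_nv _).1.trans_eq ?_) (abs_nonneg _)
          ((abs_nonneg _).trans ((exists_sk T).choose_spec 0)))))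
    simp [m, ND.tc, YTC.out]
  have l : ∀ {V : Type} [NormedAddCommGroup V] [InnerProductSpace ℝ V] (v : YW I3 Y → V),
      ‖q.sum fun T a => a • N.oc X.K T.1 c x • nrm (v T)‖ ≤ k⁻¹ * m := fun v =>
    norm_fsum m0 (by linarith) (fun T => (norm_smul _ _).trans_le
      ((mul_le_of_le_one_right (norm_nonneg _) (norm_nrm _)).trans (o T))) hq
  have k1 : k⁻¹ ≤ 1 := inv_le_one_of_one_le₀ hk
  have k0 : 0 ≤ k⁻¹ := inv_nonneg.2 (by linarith)
  have b : k⁻¹ * m ≤ 1 := mul_le_one₀ k1 m0 h2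
  have b2 : (k⁻¹ * m) ^ 2 ≤ k⁻¹ * eT N X c (X.K.τ x) := by
    rw [abs_of_nonneg e0] at h1
    nlinarith [mul_le_mul_of_nonneg_left h1 k0, mul_nonneg k0 m0]
  have a1 : ‖(qq N X q r n).D c x‖ ≤ k⁻¹ * m := l _
  have a2 : ‖(qq N X q r n).C c x‖ ≤ k⁻¹ * m := l _
  exact ⟨a1.trans b, by
    linarith [pow_le_pow_left₀ (norm_nonneg _) a1 2, pow_le_pow_left₀ (norm_nonneg _) a2 2]⟩

theorem χ4_le (x : X.M) : X.K.χ4 x ^ 2 ≤ X.K.cut 3 (X.K.τ x) := by
  by_cases hx : x ∈ X.K.dp 4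
  · rw [cut_τ_one X.K (by norm_num) (by norm_num; exact hx)]; exact pow_le_one₀ ct_mem.1 ct_mem.2
  · rw [show X.K.χ4 x = 0 from ct_zero hx, sq, zero_mul]; exact ct_mem.1

omit X in
/-- the smoothed energy is bounded by the energy -/
theorem exists_ew (hD : D.OK) (hN : N.OK D) : ∃ C, 1 ≤ C ∧ ∀ S r (X : NK D S)
    (c : Cfg X.M (Option κ) lam r) ϖ a, c.Adm X.B X.G → Amb X.G.F ϖ →
    LB X.G.F.μ (fun x => X.K.cut 3 (X.K.τ x) * en X.G.F c X.K.τ x) a →
    LB X.G.F.μ (N.ew X.K c) (C * a) := by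
  choose C hC using fun i => cbs_D_fn D (g := some (N.y i)) fun _ h => Option.some.inj h ▸ hN.sy i
  refine ⟨∑ i, 8 * (8 * (4 * (Fintype.card (Option κ) * C i 0) ^ 2)) + 1,
    le_add_of_nonneg_left (by positivity), fun S r X c ϖ a A hϖ h => ?_⟩
  have P := pn2 hD X
  have c4 : Continuous X.K.χ4 := contDiff_ct.continuous.comp X.K.cont
  have k : ∀ i, LB X.G.F.μ (fun x => ‖c.sd X.G.F (.cv X.K.χ4 X.K.τ (X.K.ext (N.y i))) x‖ ^ 2)
      (8 * (8 * (4 * (Fintype.card (Option κ) * C i 0) ^ 2 * a))) := fun i => by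
    have e : ∀ x, ∑ s : Option κ × Option κ, (X.K.χ4 x * X.G.F.D s.1 X.K.τ x *
        X.G.F.D s.2 (X.K.ext (N.y i)) x) • c.m.Fg X.G.F c.W x s =
        X.K.χ4 x • ∑ b, X.G.F.D b (X.K.ext (N.y i)) x • xA X.G.F c X.K.τ x b := fun x => by
      rw [Fintype.sum_prod_type, Finset.sum_comm]
      simp only [xA, Finset.smul_sum, smul_smul]
      exact Finset.sum_congr rfl fun _ _ => Finset.sum_congr rfl fun _ _ => by congr 1; ring
    have mc := Mp86.mc_adW A.conn
    refine hϖ.lb_res mc (hϖ.lb_res mc ?_)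
    simp only [e]
    refine (h.mul (by positivity)).mono ((c4.smul (continuous_finsetSum _ fun b _ =>
      (X.G.F.sm_D (sm_ext X.K (hN.sy i)) b).continuous.smul
        (sm_app (P.sm_xA A) b).continuous)).norm.pow 2).aestronglyMeasurable
      (fun _ => sq_nonneg _) fun x => ?_
    have b := pow_le_pow_left₀ (norm_nonneg _) ((norm_sum_le _ _).trans (Finset.sum_le_card_nsmul
      Finset.univ _ _ fun b _ => (norm_smul _ _).trans_le (mul_le_mul ((hC i X.K b).2 0 [] le_rfl x)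
        (PiLp.norm_apply_le (xA X.G.F c X.K.τ x) b) (norm_nonneg _)
          ((norm_nonneg _).trans ((hC i X.K b).2 0 [] le_rfl x))))) 2
    rw [nsmul_eq_mul, Finset.card_univ, ← mul_assoc, mul_pow] at b
    rw [norm_smul, mul_pow, Real.norm_eq_abs, sq_abs, mul_left_comm]
    refine mul_le_mul (χ4_le X x) (b.trans ?_) (sq_nonneg _) ct_mem.1
    rw [en]
    nlinarith [mul_nonneg (sq_nonneg (Fintype.card (Option κ) * C i 0))
      (sq_nonneg ‖xP X.G.F c X.K.τ x‖)]
  refine (((LB.sum Finset.univ fun i _ => k i).add h).mono (Mp86.ct_ew X A).1.aestronglyMeasurable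
    (Mp86.ct_ew X A).2 fun x => ?_).le (le_of_eq (by simp only [add_mul, Finset.sum_mul, mul_assoc, one_mul]))
  refine (mul_le_of_le_one_left (by unfold ew; positivity) ct_mem.2).trans (add_le_add le_rfl ?_)
  rw [norm_smul, mul_pow, Real.norm_eq_abs, sq_abs]
  exact mul_le_mul (χ4_le X x) (le_add_of_nonneg_left (by positivity)) (sq_nonneg _) ct_mem.1

theorem tend_θ {f : X.M → ℝ} (hf : Continuous f)
    (hi : Integrable (fun x => X.K.cut 3 (X.K.τ x) * f x) X.G.F.μ) :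
    Tendsto (fun n : ℕ => ∫ x, θc (X.K.p.getD (-n)) (X.K.q.getD n) (X.K.τ x) * f x ∂X.G.F.μ) atTop
      (𝓝 (∫ x, X.K.cut 3 (X.K.τ x) * f x ∂X.G.F.μ)) :=
  tendsto_integral_of_dominated_convergence _ (fun _ => ((contDiff_ct.continuous.comp
    X.K.sm_τ.continuous).mul hf).aestronglyMeasurable) hi.norm (fun _ => .of_forall fun x => by
      rw [norm_mul, norm_mul, Real.norm_of_nonneg ct_mem.1, Real.norm_of_nonneg ct_mem.1]
      exact mul_le_mul_of_nonneg_right ct_getD (norm_nonneg _))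
    (.of_forall fun x => tendsto_const_nhds.congr' ((ev_getD _).mono fun _ h => congrArg (· * f x) h.symm))

variable {X} {a a' e : ℝ} (T : Sb X.K.p X.K.q a a')
include T

theorem Sb.lb_eT (hδ : 0 < N.δ) (A : c.Adm X.B X.G) (h : LB X.G.F.μ (N.ew X.K c) e) :
    LB X.G.F.μ (fun x => θc a a' (X.K.τ x) * eT N X c (X.K.τ x)) (vY D * e) := by
  have := sfin X.G.F.toPre
  have m := X.K.sm_τ.continuous.aestronglyMeasurable (μ := X.G.F.μ)
  obtain ⟨i, k⟩ := integral_wn hδ m h.1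
  have p := wn_nonneg (μ := X.G.F.μ) (τ := X.K.τ) hδ (Mp86.ct_ew (N := N) X A).2
  have l : LB volume (fun t => θc a a' t * eT N X c t) e := LB.mono ⟨i, k.trans_le h.2⟩
    (contDiff_ct.continuous.aestronglyMeasurable.mul i.1) (fun t => mul_nonneg ct_mem.1 (p t))
    fun t => mul_le_of_le_one_left (p t) ct_mem.2
  have := int_time X.K l.1 (T.off (d := 3) (by norm_num) fun _ h => mul_eq_zero_of_left (ct_zero h) _)
  simp only [fun t => abs_of_nonneg (mul_nonneg (ct_mem (p := some a) (q := some a') (d := 3)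
    (s := t)).1 (p t))] at this
  exact this.le (mul_le_mul_of_nonneg_left l.2 (vY_nonneg D))

/-- the boundary term of the Dirac operator -/
theorem Sb.dirac (hD : D.OK) (A : c.Adm X.B X.G) {U : ℝ} {g : X.M → ℝ} (g0 : ∀ x, 0 ≤ g x)
    (U0 : 0 ≤ U) (hΦ : ∀ x, ‖c.Φ x‖ ^ 2 ≤ U) (hg : LB X.G.F.μ (fun x => X.K.cut 2 (X.K.τ x) * g x) e)
    (h : ∀ x ∈ X.K.dp 2, ‖dir X.I X.G.F.e c.m.ρ c.W c.Φ x‖ ^ 2 ≤ U + 2 * g x) :
    ∫ x, X.G.F.D none (fun x => θc a a' (X.K.τ x)) x * ⟪dY X.G.F c X.K.τ x, c.Φ x⟫_ℝ ∂X.G.F.μ ≤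
      2 * U * (vY D * (80 * cA)) + cA * e := by
  have P := pn2 hD X
  have t0 := (T.tf (G := X.G)).ts.D (F := X.G.F) none
  have t1 := t0.mul (sm_inner A.sm A.sm)
  have i0 := (t0.mul (sm_inner (P.sm_dY A) A.sm)).int X.G.F
  have i1 := (t1.D (F := X.G.F) none).int X.G.F
  have e1 := ibp0_fun (F := X.G.F) P.dv t1
  have c1 := cd_deriv (contDiff_ct (p := some a) (q := some a') (d := 3))
  have l1 := T.lbZ (G := X.G) c1.continuous (fun _ => dct_le) fun s h => dθ_off s fun e => h (Zc_sub e)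
  have l2 := T.lbZ (G := X.G) (cd_deriv c1).continuous (C := cA)
    (fun _ => by simpa [iteratedDeriv_succ] using ct_le 2) fun s h =>
      deriv_off isClosed_Zc dθ_off s fun e => h (Zc_sub e)
  have l := ((l1.add l2).1.const_mul U).add (hg.1.const_mul cA)
  have key : ∀ x, X.G.F.D none (fun x => θc a a' (X.K.τ x)) x * ⟪dY X.G.F c X.K.τ x, c.Φ x⟫_ℝ +
      2⁻¹ * X.G.F.D none (fun x => X.G.F.D none (fun x => θc a a' (X.K.τ x)) x *
        ⟪c.Φ x, c.Φ x⟫_ℝ) x ≤ U * (|deriv (θc a a') (X.K.τ x)| + |deriv (deriv (θc a a')) (X.K.τ x)|) +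
        cA * (X.K.cut 2 (X.K.τ x) * g x) := fun x => by
    have p1 := mul_nonneg (mul_nonneg (zero_le_one.trans one_le_cA) (ct_mem (p := X.K.p)
      (q := X.K.q) (d := 2) (s := X.K.τ x)).1) (g0 x)
    by_cases hx : x ∈ O X.K 2
    swap
    · rw [t0.zero hx, (t1.D none).zero hx, ← mul_assoc cA, zero_mul, mul_zero, add_zero]
      positivity
    rw [Pre.D_def _ none (fun x => _ * _), dv_mul (t0.sm x) (sm_inner A.sm A.sm x),
      dv_inner none (A.conn.sk none x) (A.sm x) (A.sm x), ← P.toPrd.xP_eq c hx, ← Pre.D_def, T.Dθ,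
      T.DDθ, dY, inner_sub_left, inner_neg_left, real_inner_comm (xP _ _ _ _),
      real_inner_self_eq_norm_sq]
    beta_reduce
    have b1 : |deriv (θc a a') (X.K.τ x)| ≤ cA * X.K.cut 2 (X.K.τ x) := by
      by_cases z : X.K.τ x ∈ Zc a a' 3 4
      · rw [show X.K.cut 2 (X.K.τ x) = 1 from ct_one (by norm_num; exact T.dp z.1), mul_one]
        exact dct_le
      · rw [dθ_off _ z, abs_zero]; exact mul_nonneg (zero_le_one.trans one_le_cA) ct_mem.1
    have b2 : |⟪cT X.G.F c X.K.τ x (dir X.I X.G.F.e c.m.ρ c.W c.Φ x), c.Φ x⟫_ℝ| ≤ U + g x :=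
      (abs_real_inner_le_norm _ _).trans ((mul_le_mul_of_nonneg_right (P.norm_cT A hx _)
        (norm_nonneg _)).trans (by
          linarith [h x (O_sub_dp X.K hx), hΦ x, two_mul_le_add_sq
            ‖dir X.I X.G.F.e c.m.ρ c.W c.Φ x‖ ‖c.Φ x‖]))
    have b3 := (neg_le_abs _).trans ((abs_mul _ _).trans_le (mul_le_mul_of_nonneg_left b2
      (abs_nonneg (deriv (θc a a') (X.K.τ x)))))
    have b4 := mul_le_mul_of_nonneg_right b1 (g0 x)
    have b5 := mul_le_mul (le_abs_self (deriv (deriv (θc a a')) (X.K.τ x))) (hΦ x) (sq_nonneg _)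
      (abs_nonneg _)
    have b6 := mul_nonneg (abs_nonneg (deriv (deriv (θc a a')) (X.K.τ x))) U0
    linarith
  have := integral_mono (i0.add (i1.const_mul 2⁻¹)) l key
  simp only [Pi.add_apply] at this
  rw [integral_add i0 (i1.const_mul _), integral_const_mul, e1, mul_zero, add_zero,
    integral_add ((l1.add l2).1.const_mul U) (hg.1.const_mul cA), integral_const_mul,
    integral_const_mul] at this
  linarith [mul_le_mul_of_nonneg_left (l1.add l2).2 U0,
    mul_le_mul_of_nonneg_left hg.2 (zero_le_one.trans one_le_cA)]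

end Crest.Agent.X212.Dgr80
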