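import Crest.Agent.X212.Cyc79.Ub
import Crest.Agent.X212.Dgr80.Tk
import Crest.Agent.X212.Dgr80.En1
import Crest.Agent.X212.Dec35.Cyl

-- ▼ part X212/Dgr80/Uk0
section

/-!
# Row 212, LOC-K (helper80): local boundedness from a local Sobolev inequality
-/

set_option autoImplicit false
set_option linter.unusedSectionVars false
noncomputable section
open scoped Manifold ContDiff Topology InnerProductSpace
open MeasureTheory Set Function Filter

namespace Crest.Agent.X212.Dgr80.Uk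
open An Mp86 Cyc79
open Wz78 (lap)
open Cht98 (L4On)

variable {E : Type} [NormedAddCommGroup E] [NormedSpace ℝ E] [FiniteDimensional ℝ E]
  [MeasurableSpace E] [BorelSpace E]
  {HM : Type} [TopologicalSpace HM] {I : ModelWithCorners ℝ E HM} [I.Boundaryless]
  {M : Type} [TopologicalSpace M] [ChartedSpace HM M] [IsManifold I ∞ M]
  [MeasurableSpace M] [T2Space M] [BorelSpace M] [SecondCountableTopology M]
  {ι : Type} [Fintype ι] {V : Type} [NormedAddCommGroup V] [InnerProductSpace ℝ V]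
  {F : Fr I M ι} {A : ι → M → V →L[ℝ] V} {ψ U φ ζ η w σ : M → ℝ} {N S β : ℝ} {s : M → V}
  {O : Set M}

/-- the Sobolev inequality behind the cut-off function `η` -/
def LC (F : Fr I M ι) (η : M → ℝ) (S : ℝ) : Prop := Continuous η ∧
  ∀ v : M → ℝ, Sm I v → HasCompactSupport v → √(∫ x, (η x * v x) ^ 4 ∂F.μ) ≤ S * F.ip 1 v v

theorem lc_of (h : L4On F.toPre O S) (hS : 0 ≤ S) (hη : Cu F N η) (h1 : ∀ x, |η x| ≤ 1)
    (hO : tsupport η ⊆ O) : LC F η (S * (2 + 2 * N)) := ⟨hη.sm.continuous, fun v hv hc => by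
  have s1 : Sm I fun x => η x * v x := hη.sm.mul hv
  have c1 : HasCompactSupport fun x => η x * v x := hc.mul_left
  refine (h _ s1 c1 ((tsupport_mul_subset_left (f := η) (g := v)).trans hO)).trans ?_
  rw [mul_assoc]
  refine mul_le_mul_of_nonneg_left ?_ hS
  have i : ∀ {u : M → ℝ}, Sm I u → HasCompactSupport u → Integrable (fun x => u x ^ 2) F.μ ∧
      (Integrable (fun x => ∑ a, F.D a u x ^ 2) F.μ) ∧
      F.ip 1 u u = ∫ x, (u x ^ 2 + ∑ a, F.D a u x ^ 2) ∂F.μ := fun {u} a b => by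
    have j := fun k => integ_pow (F := F) (F.sm_D a k).continuous (F.hcs_D b k) two_ne_zero
    have j0 := integ_pow (F := F) a.continuous b two_ne_zero
    refine ⟨j0, integrable_finsetSum _ fun k _ => j k, ?_⟩
    rw [integral_add j0 (integrable_finsetSum _ fun k _ => j k), integral_finsetSum _ fun k _ => j k]
    simp only [Pre.ip, real_inner_self_eq_norm_sq, Real.norm_eq_abs, sq_abs]
  obtain ⟨a1, a2, a3⟩ := i s1 c1
  obtain ⟨b1, b2, b3⟩ := i hv hc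
  rw [a3, b3, ← integral_const_mul]
  refine integral_mono (a1.add a2) ((b1.add b2).const_mul _) fun x => ?_
  have e : ∑ a, F.D a (fun x => η x * v x) x ^ 2 ≤
      ∑ a, (2 * v x ^ 2 * F.D a η x ^ 2 + 2 * F.D a v x ^ 2) := Finset.sum_le_sum fun a _ => by
    rw [show F.D a (fun x => η x * v x) x = F.D a η x * v x + η x * F.D a v x from
      Mp86.dv_mul (md1 hη.sm x) (md1 hv x)]
    have : η x ^ 2 ≤ 1 := (sq_le_one_iff_abs_le_one _).2 (h1 x)
    nlinarith [sq_nonneg (F.D a η x * v x - η x * F.D a v x),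
      mul_le_mul_of_nonneg_right this (sq_nonneg (F.D a v x))]
  rw [Finset.sum_add_distrib, ← Finset.mul_sum, ← Finset.mul_sum] at e
  have : η x ^ 2 ≤ 1 := (sq_le_one_iff_abs_le_one _).2 (h1 x)
  have N0 := (gr_nn F η x).trans (hη.gr x)
  beta_reduce
  nlinarith [mul_le_mul_of_nonneg_right this (sq_nonneg (v x)), gr_nn F v x,
    mul_le_mul_of_nonneg_left (hη.gr x) (sq_nonneg (v x)), mul_nonneg N0 (gr_nn F v x)]⟩

theorem step (h : Mp86.Eng F w σ) {t ε : ℝ} (hS : LC F η S) (hη : ∀ x, 0 < w x → η x = 1)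
    (hS0 : 0 ≤ S) (hβ0 : 0 ≤ β)
    (hi : Integrable (fun x => σ x ^ 4) F.μ) (hβ : ∫ x, σ x ^ 4 ∂F.μ ≤ β ^ 4)
    (ht : 0 < t) (hε : 0 < ε) {A : Set M} (hA : MeasurableSet A) (hA' : F.μ A ≠ ⊤)
    (hout : ∀ x ∉ A, w x ≤ t ∨ σ x ≤ t) {T : ℝ} (hT : t + ε < T) :
    (T - t - ε) ^ 4 * F.μ.real {x | T < w x} ≤ (S * β) ^ 4 * F.μ.real A ^ 2 := by
  obtain ⟨v, a1, a2, a3, a4, a5, a6⟩ := h.energy ht hε
  have vc := a1.continuous
  have i4 : Integrable (fun x => v x ^ 4) F.μ := integ_pow vc a2 (by norm_num)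
  have j1 : Integrable (fun x => v x * σ x) F.μ :=
    (vc.mul h.cont).integrable_of_hasCompactSupport a2.mul_right
  have j2 : Integrable (fun x => (v x * σ x) ^ 2) F.μ :=
    integ_pow (vc.mul h.cont) a2.mul_right two_ne_zero
  have j3 : Integrable (fun x => A.indicator (fun _ => (1 : ℝ)) x ^ 2) F.μ := by
    refine ((integrable_indicator_iff hA).2 (integrableOn_const (C := (1 : ℝ)) hA')).congr
      (.of_forall fun x => ?_)
    by_cases hx : x ∈ A <;> simp [hx]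
  have j4 : Integrable (fun x => v x * σ x * A.indicator (fun _ => (1 : ℝ)) x) F.μ := by
    refine (j1.indicator hA).congr (.of_forall fun x => ?_)
    by_cases hx : x ∈ A <;> simp [hx]
  have b1 : ∫ x, v x * (σ x - t) ∂F.μ ≤ ∫ x, v x * σ x * A.indicator (fun _ => (1 : ℝ)) x ∂F.μ := by
    refine integral_mono ((vc.mul (h.cont.sub continuous_const)).integrable_of_hasCompactSupport
      a2.mul_right) j4 fun x => ?_
    by_cases hx : x ∈ A
    · simp only [indicator_of_mem hx]; nlinarith [a3 x]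
    · simp only [indicator_of_notMem hx]
      rcases hout x hx with h1 | h1
      · simp [a4 x h1]
      · nlinarith [a3 x]
  have b2 := int_cs j2 j3 j4
  have b3 : ∫ x, A.indicator (fun _ => (1 : ℝ)) x ^ 2 ∂F.μ = F.μ.real A := by
    rw [← integral_indicator_one hA]
    exact integral_congr_ae (.of_forall fun x => by by_cases hx : x ∈ A <;> simp [hx])
  have b4 := int_cs (μ := F.μ) (f := fun x => v x ^ 2) (g := fun x => σ x ^ 2)
    (i4.congr (.of_forall fun x => by ring)) (hi.congr (.of_forall fun x => by ring))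
    (j2.congr (.of_forall fun x => by ring))
  simp only [← pow_mul, ← mul_pow, Nat.reduceMul] at b4
  have b5 := hS.2 v a1 a2
  have ee : ∀ x, η x * v x = v x := fun x => (le_or_gt (w x) t).elim (fun k => by simp [a4 x k])
    fun k => by rw [hη x (ht.trans k), one_mul]
  simp only [ee] at b5
  set X := ∫ x, v x ^ 4 ∂F.μ with hX
  have X0 : 0 ≤ X := integral_nonneg fun x => by positivity
  have b6 : √(∫ x, σ x ^ 4 ∂F.μ) ≤ β ^ 2 := Real.sqrt_le_iff.2 ⟨by positivity, by linarith⟩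
  have b7 : √(∫ x, (v x * σ x) ^ 2 ∂F.μ) ≤ √(√X) * β := by
    refine Real.sqrt_le_iff.2 ⟨by positivity, ?_⟩
    rw [mul_pow, Real.sq_sqrt (Real.sqrt_nonneg _)]
    exact b4.trans (mul_le_mul_of_nonneg_left b6 (Real.sqrt_nonneg _))
  rw [b3] at b2
  have b8 : √(√X) ≤ S * β * √(F.μ.real A) := by
    refine le_of_sq_le_mul (by positivity) ?_
    rw [Real.sq_sqrt (Real.sqrt_nonneg _)]
    have := mul_le_mul_of_nonneg_left (a6.trans (b1.trans (b2.trans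
      (mul_le_mul_of_nonneg_right b7 (Real.sqrt_nonneg _))))) hS0
    nlinarith
  have b9 : X ≤ (S * β) ^ 4 * F.μ.real A ^ 2 := by
    have h1 := pow_le_pow_left₀ (Real.sqrt_nonneg _) b8 4
    have h2 : √(√X) ^ 4 = X := by
      rw [show 4 = 2 * 2 from rfl, pow_mul, Real.sq_sqrt (Real.sqrt_nonneg _), Real.sq_sqrt X0]
    have h3 : √(F.μ.real A) ^ 4 = F.μ.real A ^ 2 := by
      rw [show 4 = 2 * 2 from rfl, pow_mul, Real.sq_sqrt measureReal_nonneg]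
    rwa [h2, mul_pow, h3] at h1
  refine le_trans (cheb i4 (by linarith)
    fun x (hx : T < w x) => ?_).2 b9
  linarith [a5 x]

theorem sup_le [F.μ.IsOpenPosMeasure] (h : Mp86.Eng F w σ) (hS : LC F η S)
    (hη : ∀ x, 0 < w x → η x = 1)
    (hS0 : 0 < S) (hβ0 : 0 < β) (hi : Integrable (fun x => σ x ^ 4) F.μ)
    (hβ : ∫ x, σ x ^ 4 ∂F.μ ≤ β ^ 4) (x : M) : w x ≤ (3 + 8 * S ^ 2) * β := by
  have wc := h.sm.continuous
  have ms : ∀ t, MeasurableSet {x | t < w x} := fun t =>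
    (isOpen_lt continuous_const wc).measurableSet
  have fin : ∀ t > 0, F.μ {x | t < w x} ≠ ⊤ := fun t ht =>
    ((measure_mono fun x (hx : t < w x) => hx.le).trans_lt (h.cpt t ht).measure_lt_top).ne
  have mσ : MeasurableSet {x | β < σ x} := (isOpen_lt continuous_const h.cont).measurableSet
  obtain ⟨c1, c2⟩ := cheb (A := {x | β < σ x}) hi hβ0 fun x (hx : β < σ x) => hx.le
  have c3 : F.μ.real {x | β < σ x} ≤ 1 :=
    le_of_mul_le_mul_left (by linarith) (pow_pos hβ0 4)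
  have c4 := step h hS hη hS0.le hβ0.le hi hβ hβ0 hβ0 mσ c1
    (fun x hx => Or.inr (not_lt.1 hx)) (T := 3 * β) (by linarith)
  have c5 : F.μ.real {x | 3 * β < w x} ≤ S ^ 4 := by
    have h1 : F.μ.real {x | β < σ x} ^ 2 ≤ 1 := pow_le_one₀ measureReal_nonneg c3
    refine le_of_mul_le_mul_left ?_ (pow_pos hβ0 4)
    rw [show 3 * β - β - β = β by ring] at c4
    nlinarith [mul_le_mul_of_nonneg_left h1 (show 0 ≤ (S * β) ^ 4 by positivity)]
  set d := 8 * S ^ 2 * β with hd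
  have d0 : 0 < d := by positivity
  let t : ℕ → ℝ := fun k => 3 * β + d * (1 - (1 / 2) ^ k)
  have p0 : ∀ k : ℕ, 0 < (1 / 2 : ℝ) ^ k := fun k => by positivity
  have p1 : ∀ k : ℕ, (1 / 2 : ℝ) ^ k ≤ 1 := fun k => pow_le_one₀ (by norm_num) (by norm_num)
  have t0 : ∀ k, 0 < t k := fun k => by
    have := mul_nonneg d0.le (sub_nonneg.2 (p1 k))
    simp only [t]; linarith
  have key := iter_zero (a := fun k => F.μ.real {x | t k < w x}) (q := (1 / (2 * S)) ^ 4)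
    (fun _ => measureReal_nonneg) (by positivity) (by
      have h1 : t 0 = 3 * β := by simp [t]
      have h2 : (1 / (2 * S)) ^ 4 * S ^ 4 * 16 = 1 := by field_simp; norm_num
      simp only [h1]
      nlinarith [mul_le_mul_of_nonneg_left c5 (show 0 ≤ (1 / (2 * S)) ^ 4 by positivity)])
    fun k => by
      have e1 : t (k + 1) - t k - d * (1 / 2) ^ k / 4 = d * (1 / 2) ^ k / 4 := by
        simp only [t]; ring
      have q0 : 0 < d * (1 / 2) ^ k / 4 := by positivity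
      have h1 := step h hS hη hS0.le hβ0.le hi hβ (t0 k) q0 (ms _) (fin _ (t0 k))
        (fun x hx => Or.inl (not_lt.1 hx)) (T := t (k + 1)) (by linarith)
      rw [e1] at h1
      refine le_of_mul_le_mul_left (h1.trans_eq ?_) (pow_pos q0 4)
      have h2 : ((1 / 2 : ℝ) ^ k) ^ 4 * 16 ^ k = 1 := by
        rw [← pow_mul, mul_comm k, pow_mul, ← mul_pow]; norm_num
      have h3 : (S * β) ^ 4 = (d / 4) ^ 4 * (1 / (2 * S)) ^ 4 := by rw [hd]; field_simp; norm_num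
      rw [h3]
      linear_combination (-(d / 4) ^ 4 * (1 / (2 * S)) ^ 4 * F.μ.real {x | t k < w x} ^ 2) * h2
  have z : F.μ.real {x | 3 * β + d < w x} ≤ 0 := by
    have lim : Tendsto (fun k : ℕ => F.μ.real {x | t 0 < w x} * (1 / 16 : ℝ) ^ k) atTop (𝓝 0) := by
      simpa using (tendsto_pow_atTop_nhds_zero_of_lt_one (r := (1 / 16 : ℝ)) (by norm_num)
        (by norm_num)).const_mul (F.μ.real {x | t 0 < w x})
    refine ge_of_tendsto' lim fun k => le_trans (measureReal_mono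
      (fun x (hx : 3 * β + d < w x) => ?_) (fin _ (t0 k))) (key k)
    have := mul_pos d0 (p0 k)
    show 3 * β + d * (1 - (1 / 2) ^ k) < w x
    linarith
  have z2 : F.μ {x | 3 * β + d < w x} = 0 :=
    (measureReal_eq_zero_iff (fin _ (by positivity))).1 (le_antisymm z measureReal_nonneg)
  have z3 := (isOpen_lt continuous_const wc).measure_eq_zero_iff F.μ |>.1 z2
  refine le_of_not_gt fun hx => (z3 ▸ (show x ∈ {x | 3 * β + d < w x} from ?_) : x ∈ (∅ : Set M))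
  show 3 * β + d < w x
  linarith

theorem l4_le (h : Mp86.Eng F w σ) {t ε : ℝ} (hS : LC F η S) (hS0 : 0 ≤ S) (hβ0 : 0 ≤ β)
    (hi : Integrable (fun x => σ x ^ 2) F.μ) (hβ : ∫ x, σ x ^ 2 ∂F.μ ≤ β ^ 2)
    (ht : 0 < t) (hε : 0 < ε) :
    ∃ v : M → ℝ, Continuous v ∧ HasCompactSupport v ∧ (∀ x, w x - t - ε ≤ v x) ∧
      ∫ x, (η x * v x) ^ 4 ∂F.μ ≤ (S * β ^ 2) ^ 2 := by
  obtain ⟨v, a1, a2, a3, -, a5, a6⟩ := h.energy ht hε
  have vc := a1.continuous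
  have j1 : Integrable (fun x => v x * σ x) F.μ :=
    (vc.mul h.cont).integrable_of_hasCompactSupport a2.mul_right
  have b1 : ∫ x, v x * (σ x - t) ∂F.μ ≤ ∫ x, v x * σ x ∂F.μ :=
    integral_mono ((vc.mul (h.cont.sub continuous_const)).integrable_of_hasCompactSupport
      a2.mul_right) j1 fun x => by nlinarith [a3 x]
  have b2 := int_cs (integ_pow vc a2 two_ne_zero) hi j1
  have b3 : ∫ x, v x ^ 2 ∂F.μ ≤ F.ip 1 v v := by
    simp only [Pre.ip, real_inner_self_eq_norm_sq, Real.norm_eq_abs, sq_abs]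
    exact le_add_of_nonneg_right (Finset.sum_nonneg fun a _ => integral_nonneg fun x => sq_nonneg _)
  have b4 : √(∫ x, σ x ^ 2 ∂F.μ) ≤ β := Real.sqrt_le_iff.2 ⟨hβ0, hβ⟩
  have b5 : √(F.ip 1 v v) ≤ β := by
    refine le_of_sq_le_mul hβ0 ?_
    rw [Real.sq_sqrt (F.ip_nonneg 1 v), mul_comm]
    exact a6.trans (b1.trans (b2.trans (mul_le_mul (Real.sqrt_le_sqrt b3) b4 (Real.sqrt_nonneg _)
      (Real.sqrt_nonneg _))))
  have b6 := (Real.sqrt_le_iff.1 b5).2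
  exact ⟨v, vc, a2, a5,
    (Real.sqrt_le_iff.1 ((hS.2 v a1 a2).trans (mul_le_mul_of_nonneg_left b6 hS0))).2⟩

theorem fat {g c : M → ℝ} {B : ℝ} (hg : Continuous g) (g0 : ∀ x, 0 ≤ g x) (hc : Continuous c)
    (hη : Continuous η) (h : ∀ δ > 0, ∃ v : M → ℝ, Continuous v ∧ HasCompactSupport v ∧
      (∀ x, g x - c x * δ ≤ v x) ∧ ∫ x, (η x * v x) ^ 4 ∂F.μ ≤ B) :
    Integrable (fun x => (η x * g x) ^ 4) F.μ ∧ ∫ x, (η x * g x) ^ 4 ∂F.μ ≤ B := by
  let δ : ℕ → ℝ := fun n => 1 / (n + 1)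
  have δ0 : ∀ n, 0 < δ n := fun n => Nat.one_div_pos_of_nat
  have fc : ∀ n, Continuous fun x => (η x * max (g x - c x * δ n) 0) ^ 4 := fun n => by fun_prop
  have key : ∀ n, Integrable (fun x => (η x * max (g x - c x * δ n) 0) ^ 4) F.μ ∧
      ∫ x, (η x * max (g x - c x * δ n) 0) ^ 4 ∂F.μ ≤ B := fun n => by
    obtain ⟨v, a1, a2, a3, a5⟩ := h _ (δ0 n)
    have i4 : Integrable (fun x => (η x * v x) ^ 4) F.μ :=
      integ_pow (hη.mul a1) a2.mul_left (by norm_num)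
    have le : ∀ x, (η x * max (g x - c x * δ n) 0) ^ 4 ≤ (η x * v x) ^ 4 := fun x => by
      rw [mul_pow, mul_pow]
      refine mul_le_mul_of_nonneg_left ?_ (by positivity)
      rcases le_total (g x - c x * δ n) 0 with h1 | h1
      · rw [max_eq_right h1]; simp; positivity
      · rw [max_eq_left h1]
        exact pow_le_pow_left₀ h1 (a3 x) 4
    have i5 := i4.mono' (fc n).aestronglyMeasurable (.of_forall fun x => by
      rw [Real.norm_of_nonneg (by positivity)]; exact le x)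
    exact ⟨i5, (integral_mono i5 i4 le).trans a5⟩
  refine fatou (f := fun n x => (η x * max (g x - c x * δ n) 0) ^ 4)
    (by fun_prop : Continuous fun x => (η x * g x) ^ 4).measurable (fun x => by positivity)
    (fun n => (fc n).measurable) (fun n => (key n).1) (fun n x => by positivity)
    (fun n => (key n).2) fun x => ?_
  have := ((((tendsto_one_div_add_atTop_nhds_zero_nat (𝕜 := ℝ)).const_mul (c x)).const_sub
    (g x)).max (tendsto_const_nhds (x := (0 : ℝ)))).const_mul (η x) |>.pow 4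
  rwa [mul_zero, sub_zero, max_eq_left (g0 x)] at this

theorem wt_l4 (h : Wt F w) (hA : Mc I A) (hS : LC F η S)
    (hS0 : 0 ≤ S) (hβ0 : 0 ≤ β) (hi : Integrable (fun x => (w x * ‖s x‖) ^ 2) F.μ)
    (hβ : ∫ x, (w x * ‖s x‖) ^ 2 ∂F.μ ≤ β ^ 2) :
    Integrable (fun x => (η x * (w x * ‖F.res A s x‖)) ^ 4) F.μ ∧
      ∫ x, (η x * (w x * ‖F.res A s x‖)) ^ 4 ∂F.μ ≤ (S * (2 * β) ^ 2) ^ 2 := by
  rcases res_cases F A s with hu | hu
  swap
  · simp only [hu.2, Pi.zero_apply, norm_zero, mul_zero]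
    exact ⟨by simp, by simp; positivity⟩
  refine fat (c := fun x => w x + 2) (h.sm.continuous.mul hu.1.continuous.norm)
    (fun x => mul_nonneg (h.pos x).le (norm_nonneg _)) (h.sm.continuous.add continuous_const) hS.1
    fun δ δ0 => ?_
  obtain ⟨v, a1, a2, a3, a5⟩ := l4_le (h.en_res hA hu δ0) (β := 2 * β) hS hS0
    (by linarith) (by simpa only [mul_pow (2 : ℝ)] using hi.const_mul _)
    (by
      simp only [mul_pow (2 : ℝ), integral_const_mul]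
      exact mul_le_mul_of_nonneg_left hβ (by norm_num)) δ0 δ0
  exact ⟨v, a1, a2, fun x => by
    linarith [a3 x, mul_le_mul_of_nonneg_left (norm_le_sqrt (F.res A s x) δ) (h.pos x).le], a5⟩

theorem eng_lc (h : Mp86.Eng F w σ) (h0 : ∀ x, 0 ≤ w x) (hS : LC F η S) (hS0 : 0 ≤ S)
    (hβ0 : 0 ≤ β) (hi : Integrable (fun x => σ x ^ 2) F.μ) (hβ : ∫ x, σ x ^ 2 ∂F.μ ≤ β ^ 2) :
    Integrable (fun x => (η x * w x) ^ 4) F.μ ∧ ∫ x, (η x * w x) ^ 4 ∂F.μ ≤ (S * β ^ 2) ^ 2 :=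
  fat (c := fun _ => 2) h.sm.continuous h0 continuous_const hS.1 fun δ δ0 =>
    let ⟨v, a1, a2, a3, a5⟩ := l4_le h hS hS0 hβ0 hi hβ δ0 δ0
    ⟨v, a1, a2, fun x => by linarith [a3 x], a5⟩

theorem sup_wt' (hl : Lw F (1 / 16) (1 / 4) ψ) (hψ : Tendsto ψ (cocompact M) atBot) (hA : Mc I A)
    (hS : LC F η S) (e0 : ∀ x, ζ x ≠ 0 → η x = 1) (hS0 : 0 < S) {ζ' : M → ℝ} (hζ : Cu F N ζ) (hζ' : Cu F N ζ') (hN : 0 < N)
    (h1 : ∀ x, |ζ x| ≤ 1) (h1' : ∀ x, |ζ' x| ≤ 1) (e1 : ∀ x, ζ x ≠ 0 → s x = 0)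
    (e2 : ∀ x, ζ' x ≠ 0 → ζ x = 1) (hβ0 : 0 < β)
    (hi : Integrable (fun x => Real.exp (ψ x) * ‖s x‖ ^ 2) F.μ)
    (hβ : ∫ x, Real.exp (ψ x) * ‖s x‖ ^ 2 ∂F.μ ≤ β) (x : M) :
    Real.exp (ψ x) * (ζ' x * ζ' x * ‖F.res A s x‖ ^ 2) ≤ kL S N * β := by
  have := Sob92.openPos F.toPre
  have hW := hl.wt hψ
  have hW' := ((hl.mul (t := 1 / 2) (by norm_num)).mono (by norm_num) (by norm_num)).wt
    (hψ.const_mul_atBot (by norm_num))
  have ee : ∀ x, Real.exp (1 / 2 * ψ x) ^ 2 = Real.exp (ψ x) := fun x => by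
    rw [← Real.exp_nat_mul]; congr 1; push_cast; ring
  obtain ⟨i1, l1⟩ := wt_l4 hW' (s := s) (β := √β) hA hS hS0.le (Real.sqrt_nonneg _)
    (by simpa only [mul_pow, ee] using hi)
    (by simpa only [mul_pow, ee, Real.sq_sqrt hβ0.le] using hβ)
  obtain ⟨t, ht, ht'⟩ := res_rhs F A s
  set v := F.res A s
  obtain ⟨C, hC⟩ := ht.2.1
  have eq : ∀ x, ζ x ≠ 0 → v x + lap I F.e F.dv A v x = 0 := fun x hx => by
    rw [ht.2.2, ← norm_le_zero_iff, ← norm_zero (E := V), ← e1 x hx]; exact ht' x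
  have sn : Sm I fun y => ‖v y‖ ^ 2 := fun y => cm_normSq (ht.1 y)
  have bd : ∀ {ζ : M → ℝ}, (∀ x, |ζ x| ≤ 1) → ∀ x, ζ x * ζ x * ‖v x‖ ^ 2 ≤ C ^ 2 := fun {ζ} h x => by
    have a1 : ζ x * ζ x ≤ 1 := by nlinarith [abs_le.1 (h x)]
    nlinarith [pow_le_pow_left₀ (norm_nonneg _) (hC x) 2, sq_nonneg ‖v x‖]
  have nn : ∀ (ζ : M → ℝ) x, 0 ≤ ζ x * ζ x * ‖v x‖ ^ 2 := fun ζ x =>
    mul_nonneg (mul_self_nonneg _) (sq_nonneg _)
  have E1 := hW.en (f := fun x => ζ x * ζ x * ‖v x‖ ^ 2) 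
    (σ := fun x => 10 * N * (η x ^ 2 * ‖v x‖ ^ 2)) ((hζ.sm.mul hζ.sm).mul sn) (nn ζ) (bd h1)
    (continuous_const.mul ((hS.1.pow 2).mul sn.continuous))
    fun x => sub_cut hA ht.1 hζ h1 (by positivity) fun hx => ⟨eq x hx, by simp [e0 x hx]⟩
  have r1 : ∀ x, (2 * (Real.exp (ψ x) * (10 * N * (η x ^ 2 * ‖v x‖ ^ 2)))) ^ 2 =
      (20 * N) ^ 2 * (η x * (Real.exp (1 / 2 * ψ x) * ‖v x‖)) ^ 4 := fun x => by rw [← ee]; ring
  obtain ⟨i2, l2⟩ := eng_lc (β := 20 * N * (S * 4 * β)) E1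
    (fun x => mul_nonneg (Real.exp_pos _).le (nn ζ x)) hS hS0.le (by positivity)
    (by simpa only [r1] using i1.const_mul _) (by
      simp only [r1, integral_const_mul]
      rw [mul_pow (20 * N)]
      refine mul_le_mul_of_nonneg_left (l1.trans_eq ?_) (sq_nonneg _)
      rw [mul_pow 2, Real.sq_sqrt hβ0.le]; ring)
  have e3 : ∀ x, η x * (Real.exp (ψ x) * (ζ x * ζ x * ‖v x‖ ^ 2)) =
      Real.exp (ψ x) * (ζ x * ζ x * ‖v x‖ ^ 2) := fun x => by
    by_cases k : ζ x = 0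
    exacts [by simp [k], by rw [e0 x k, one_mul]]
  simp only [e3] at i2 l2
  have E2 := hW.en (f := fun x => ζ' x * ζ' x * ‖v x‖ ^ 2) (σ := fun x => 10 * N * (ζ x * ζ x * ‖v x‖ ^ 2))
    ((hζ'.sm.mul hζ'.sm).mul sn) (nn ζ') (bd h1')
    (continuous_const.mul ((hζ.sm.mul hζ.sm).mul sn).continuous)
    fun x => sub_cut hA ht.1 hζ' h1' (mul_nonneg (by positivity) (nn ζ x)) fun hx =>
      ⟨eq x (by rw [e2 x hx]; exact one_ne_zero), by simp [e2 x hx]⟩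
  have r2 : ∀ x, (2 * (Real.exp (ψ x) * (10 * N * (ζ x * ζ x * ‖v x‖ ^ 2)))) ^ 4 =
      (20 * N) ^ 4 * (Real.exp (ψ x) * (ζ x * ζ x * ‖v x‖ ^ 2)) ^ 4 := fun x => by ring
  refine (sup_le E2 (β := 20 * N * √S * (20 * N * (S * 4 * β))) hS
    (fun y hy => e0 y (by rw [e2 y fun k => by simp [k] at hy]; exact one_ne_zero)) hS0 (by positivity)
    (by simpa only [r2] using i2.const_mul _) ?_ x).trans_eq (by rw [kL]; ring)
  simp only [r2, integral_const_mul]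
  refine (mul_le_mul_of_nonneg_left l2 (by positivity)).trans_eq ?_
  rw [mul_pow (20 * N * √S), mul_pow (20 * N) (√S), show 4 = 2 * 2 from rfl, pow_mul (√S),
    Real.sq_sqrt hS0.le]
  ring

/-- **weighted local boundedness**, uniformly in the connection -/
theorem sup_w' {C : ℕ → ℝ} (hT : F.Tame C) (hA : Mc I A) (hU : Wu F U)
    (hS : LC F η S) (eη : ∀ x, ζ x ≠ 0 → η x = 1) (hS0 : 0 < S) {ζ' : M → ℝ} (hζ : Cu F N ζ) (hζ' : Cu F N ζ') (hN : 0 < N)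
    (h1 : ∀ x, |ζ x| ≤ 1) (h1' : ∀ x, |ζ' x| ≤ 1) (e1 : ∀ x, ζ x ≠ 0 → s x = 0)
    (e2 : ∀ x, ζ' x ≠ 0 → ζ x = 1) (hs : Continuous s) (hc : HasCompactSupport s) (x : M) :
    ‖ζ' x • F.res A s x‖ ^ 2 ≤ 6 * kL S N * U x * ∫ y, (U y)⁻¹ * ‖s y‖ ^ 2 ∂F.μ := by
  obtain ⟨ψ, g, l, g0, l0, hψ, hl⟩ := exists_lw hT
  obtain ⟨B, hB⟩ := (hc.isCompact.insert x).exists_bound_of_continuousOn
    hψ.sm.continuous.continuousOn
  have B0 : 0 ≤ B := (norm_nonneg _).trans (hB x (mem_insert _ _))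
  have p := hU.pos x
  have k0 := kL_nonneg hS0.le hN.le
  set ε := (8 * (1 + g + l + B))⁻¹ with hε
  have ε0 : 0 < ε := by positivity
  have e0 : ε * (1 + g + l + B) = 1 / 8 := by rw [hε]; field_simp
  have a1 : ε ≤ 1 / 8 := by nlinarith
  have a2 : ε * g ≤ 1 / 8 := by nlinarith
  have L := ((hψ.mul ε0.le).add (hU.add p.le).lw).mono (g' := 1 / 16) (l' := 1 / 4)
    (by nlinarith) (by nlinarith)
  have ex : ∀ y, Real.exp (ε * ψ y + -Real.log (U y + U x)) = Real.exp (ε * ψ y) * (U y + U x)⁻¹ :=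
    fun y => by rw [Real.exp_add, Real.exp_neg, Real.exp_log (by linarith [hU.pos y])]
  have b1 : ∀ y ∈ insert x (tsupport s), 7 / 8 ≤ Real.exp (ε * ψ y) ∧ Real.exp (ε * ψ y) ≤ 8 / 7 :=
    fun y hy => by
      have c1 := abs_le.1 (hB y hy)
      have c2 := Real.add_one_le_exp (ε * ψ y)
      have c3 := Real.add_one_le_exp (-(ε * ψ y))
      refine ⟨by nlinarith, ?_⟩
      have c4 : Real.exp (ε * ψ y) * Real.exp (-(ε * ψ y)) = 1 := by rw [← Real.exp_add]; simp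
      have c5 : 7 / 8 ≤ Real.exp (-(ε * ψ y)) := by nlinarith
      nlinarith [mul_le_mul_of_nonneg_left c5 (Real.exp_pos (ε * ψ y)).le]
  have uc := hU.sm.continuous
  have ci : Continuous fun y => (U y)⁻¹ * ‖s y‖ ^ 2 :=
    (uc.inv₀ fun y => (hU.pos y).ne').mul (hs.norm.pow 2)
  have hc2 : ∀ f : M → ℝ, HasCompactSupport fun y => f y * ‖s y‖ ^ 2 := fun f =>
    hc.mono fun y hy h => hy (by simp [h])
  have i0 := ci.integrable_of_hasCompactSupport (μ := F.μ) (hc2 _)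
  have i1 := ((Real.continuous_exp.comp L.sm.continuous).mul
    (hs.norm.pow 2)).integrable_of_hasCompactSupport (μ := F.μ) (hc2 _)
  have J0 : 0 ≤ ∫ y, (U y)⁻¹ * ‖s y‖ ^ 2 ∂F.μ :=
    integral_nonneg fun y => mul_nonneg (inv_nonneg.2 (hU.pos y).le) (sq_nonneg _)
  refine le_of_forall_pos_le_add fun δ hδ => ?_
  have key := sup_wt' (β := 8 / 7 * ∫ y, (U y)⁻¹ * ‖s y‖ ^ 2 ∂F.μ + δ / (6 * (kL S N + 1) * U x))
    L (tendsto_atBot_add_right_of_ge' _ (-Real.log (U x)) (hl.const_mul_atBot ε0)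
      (.of_forall fun y => neg_le_neg (Real.log_le_log p (by linarith [hU.pos y]))))
    hA hS eη hS0 hζ hζ' hN h1 h1' e1 e2 (by positivity) i1 (le_add_of_le_of_nonneg (by
      rw [← integral_const_mul]
      refine integral_mono i1 (i0.const_mul _) fun y => ?_
      by_cases hy : y ∈ tsupport s
      · simp only [ex, ← mul_assoc]
        have := hU.pos y
        gcongr
        · exact (b1 y (.inr hy)).2
        · linarith
      · simp [image_eq_zero_of_notMem_tsupport hy]) (by positivity)) x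
  rw [ex, mul_assoc, ← two_mul, mul_inv] at key
  rw [norm_smul, mul_pow, Real.norm_eq_abs, sq_abs, sq (ζ' x)]
  set Y := ζ' x * ζ' x * ‖F.res A s x‖ ^ 2
  have Y0 : 0 ≤ Y := mul_nonneg (mul_self_nonneg _) (sq_nonneg _)
  have f1 : 7 / 8 * (2⁻¹ * (U x)⁻¹ * Y) ≤ _ :=
    (mul_le_mul_of_nonneg_right (b1 x (.inl rfl)).1 (by positivity)).trans key
  have f2 := mul_le_mul_of_nonneg_left f1 p.le
  have f3 : U x * (kL S N * (δ / (6 * (kL S N + 1) * U x))) ≤ δ / 6 := by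
    rw [show U x * (kL S N * (δ / (6 * (kL S N + 1) * U x))) = δ / 6 * (kL S N / (kL S N + 1)) by
      field_simp]
    exact mul_le_of_le_one_right (by positivity) ((div_le_one (by positivity)).2 (by linarith))
  rw [show U x * (7 / 8 * (2⁻¹ * (U x)⁻¹ * Y)) = 7 / 16 * Y by field_simp; ring] at f2
  nlinarith [mul_nonneg (mul_nonneg k0 p.le) J0]

open Sob92 Wz78
variable {κ : Type} [Fintype κ] [DecidableEq κ] {A : ι → M → En κ} {p : M → En κ}
  {f f' ζ' : M → ℝ}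

theorem bs_lc (h : Pq F A p) (hU : Wu F U) (hS : LC F η S) (e0 : ∀ x, ζ x ≠ 0 → η x = 1)
    (hS0 : 0 < S) (hζ : Cu F N ζ)
    (hζ' : Cu F N ζ') (hN : 0 < N) (h1 : ∀ x, |ζ x| ≤ 1) (h1' : ∀ x, |ζ' x| ≤ 1)
    (e1 : ∀ x, ζ x ≠ 0 → f' x = 0) (e2 : ∀ x, ζ' x ≠ 0 → ζ x = 1) (e3 : ∀ x, f x ≠ 0 → ζ' x = 1)
    (hf' : Continuous f') {m : ℝ} (hm : ∀ x, f' x ^ 2 ≤ m * U x) (z : M) :
    ‖bs F A p f f' z‖ ^ 2 ≤ 3 * (f z ^ 2 * (6 * kL S N * U z * m)) := by
  have m0 : 0 ≤ m := nonneg_of_mul_nonneg_left ((sq_nonneg _).trans (hm z)) (hU.pos z) |> fun h => h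
  have k0 := kL_nonneg hS0.le hN.le
  have c0 : 0 ≤ f z ^ 2 * (6 * kL S N * U z * m) := by have := hU.pos z; positivity
  rcases fld_cases F.toPre (fun u z => f z • F.res A (fun y => f' y • p y (u y)) z) with k | k
  swap
  · rw [bs, k.2]; simpa using c0
  refine (norm_of_ct (h.sym z) (fun g => ?_) (fun g => ?_) c0).trans
    (mul_le_mul_of_nonneg_right (h.rk z) c0)
  · refine H_eq (f := fun g => p z (ct g (bs F A p f f' z))) (g := fun g => ct g (bs F A p f f' z))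
      ((p z).continuous.comp (cont_ct _)) (cont_ct _) (fun u => ?_) g
    simp only [bs, k.2 u z, map_smul]
    rw [Mp86.res_fix h.bmp h.mc h.sm ⟨1, fun x => ContinuousLinearMap.opNorm_le_bound _ zero_le_one
      fun v => by simpa using h.norm_le x v⟩ (fun x a => ?_) fun x => ?_]
    · have := h.par a x
      rw [nabE, ← add_sub_assoc, sub_eq_zero] at this
      exact this
    · rw [map_smul, ← mul_apply_eq_comp, h.idem]
  · refine (F.dense_toH 0 _).induction_on g (isClosed_le ((cont_ct _).norm.pow 2) (by fun_prop))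
      fun u => ?_
    simp only [bs, k.2 u z]
    by_cases hz : f z = 0
    · simp [hz]
    have cs : Continuous fun y => f' y • p y (u.1 y) :=
      hf'.smul (h.sm.clm_apply u.2.1).continuous
    have hc : HasCompactSupport fun y => f' y • p y (u.1 y) :=
      u.2.2.1.mono fun y hy e => hy (by simp [e])
    have k1 := sup_w' h.tame.choose_spec h.mc hU hS e0 hS0 hζ hζ' hN h1 h1'
      (fun x hx => by simp [e1 x hx]) e2 cs hc z
    rw [e3 z hz, one_smul] at k1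
    rw [norm_smul, mul_pow, Real.norm_eq_abs, sq_abs, mul_assoc, mul_assoc _ m, sq_toH,
      ← integral_const_mul]
    have := hU.pos z
    refine mul_le_mul_of_nonneg_left (k1.trans (mul_le_mul_of_nonneg_left (integral_mono_of_nonneg
      (.of_forall fun y => mul_nonneg (inv_nonneg.2 (hU.pos y).le) (sq_nonneg _))
      (((u.2.1.continuous.norm.pow 2).integrable_of_hasCompactSupport
        (u.2.2.1.mono fun y hy e => hy (by simp [e]))).const_mul m) (.of_forall fun y => ?_))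
      (by positivity))) (sq_nonneg _)
    beta_reduce
    rw [inv_mul_le_iff₀ (hU.pos y), norm_smul, mul_pow, Real.norm_eq_abs, sq_abs, ← mul_assoc,
      mul_comm (U y)]
    exact mul_le_mul (hm y) (pow_le_pow_left₀ (norm_nonneg _) (h.norm_le y _) 2) (sq_nonneg _)
      ((sq_nonneg _).trans (hm y))

/-- the local bound of the base fields -/
def kU (S N : ℝ) : ℝ :=
  √(3 * (N ^ 2 * (6 * kL (S * (2 + 2 * (2 * (mS * 4) ^ 2 * N))) (2 * (mS * 4) ^ 2 * N) * 1 * N ^ 2)))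

/-- **the base field is bounded** by the Sobolev constant of `O` -/
theorem bs_loc (h : Pq F A p) (hO : IsClosed O) (hS : L4On F.toPre O S) (hS0 : 0 < S) (N1 : 1 ≤ N)
    (hf : ∀ x, |f x| ≤ N) (hc : Continuous f') (hf' : ∀ x, |f' x| ≤ N) (a : Cu F N φ)
    (b : ∀ x, f x ≠ 0 → 1 ≤ φ x) (c : ∀ x, f' x ≠ 0 → φ x ≤ 0) (o : ∀ x ∉ O, φ x ≤ 0) (z : M) :
    ‖bs F A p f f' z‖ ≤ kU S N := by
  have m1 := one_le_mS
  have g : ∀ {t : ℝ} {x}, cf 4 t φ x ≠ 0 → t < φ x := fun hx =>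
    not_le.1 fun e => hx (cf_zero (by norm_num) e)
  have k := bs_lc (f := f) h wu_one (lc_of hS hS0.le (a.cf (k := 4) (by norm_num) 0) (cf_abs _ _)
      (closure_minimal (fun x hx => by_contra fun e => (g hx).not_ge (o x e)) hO))
    (fun x hx => cf_one (by linarith [g hx])) (by positivity) (a.cf (k := 4) (by norm_num) (1 / 4))
    (a.cf (k := 4) (by norm_num) (1 / 2)) (by positivity) (cf_abs _ _) (cf_abs _ _)
    (fun x hx => by_contra fun e => by linarith [g hx, c x e])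
    (fun x hx => cf_one (by linarith [g hx]))
    (fun x hx => cf_one (by linarith [b x hx])) hc (m := N ^ 2)
    (fun x => by rw [mul_one]; exact sq_le_sq' (abs_le.1 (hf' x)).1 (abs_le.1 (hf' x)).2) z
  have k0 := kL_nonneg (S := S * (2 + 2 * (2 * (mS * 4) ^ 2 * N))) (N := 2 * (mS * 4) ^ 2 * N)
    (by positivity) (by positivity)
  refine Real.le_sqrt_of_sq_le (k.trans ?_)
  gcongr 3 * (?_ * _)
  exact sq_le_sq' (abs_le.1 (hf z)).1 (abs_le.1 (hf z)).2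

end Crest.Agent.X212.Dgr80.Uk
end
end

-- ▼ part X212/Dgr80/Uk1
section

/-!
# Row 212, LOC-K (helper80): the bounds of the cyclic seeds from a bound of the base fields
-/

set_option autoImplicit false
set_option linter.unusedSectionVars false
noncomputable section
open scoped Manifold ContDiff Topology InnerProductSpace
open MeasureTheory Set Function Filter

namespace Crest.Agent.X212.Dgr80.Uk
open An Sob92 Wz78 Cyc79
open Mp86 (Mc Bumps Dom LaSz LLSz SB LaC sm_res)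
open Wrd81 (wd)

variable {E : Type} [NormedAddCommGroup E] [NormedSpace ℝ E] [FiniteDimensional ℝ E]
  [MeasurableSpace E] [BorelSpace E]
  {HM : Type} [TopologicalSpace HM] {I : ModelWithCorners ℝ E HM} [I.Boundaryless]
  {M : Type} [TopologicalSpace M] [ChartedSpace HM M] [IsManifold I ∞ M]
  [MeasurableSpace M] [T2Space M] [BorelSpace M] [SecondCountableTopology M]
  {ι : Type} [Fintype ι] {F : Fr I M ι} {lam : Type} [Fintype lam] {r : ℕ} {B : Base M ι lam}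
  {G : Geo I M ι lam} {c : Cfg M ι lam r} {d : Cy M} {n : ℕ} {R S k : ℝ}

/-- a bound of the two base fields -/
structure BB (F : Fr I M ι) (c : Cfg M ι lam r) (d : Cy M) (k : ℝ) : Prop where
  l : ∀ z, ‖bf F c d.f' d.f z‖ ≤ k
  r : ∀ z, ‖bf F c d.f d.f' z‖ ≤ k

section sz
variable (hd : d.Sz F n) (h : Pq F (c.m.adW c.W) c.m.pg) (hS : BB F c d (kB S n))
include hd h hS

theorem norm_W {w : List (La M)} (hw : LLSz n w) (x : M) :
    ‖wv F c (bf F c d.f' d.f) (w ++ Cyc79.xw d.f d.f') x‖ ≤ kB S n ^ (n + 3) * kB S n :=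
  (hd.W _ hw).wd h.bmp (h.mcA _) hd.one hS.l x

/-- **the seed is bounded**, uniformly in the configuration -/
theorem norm_s (x : M) : ‖(d.sed F).s c x‖ ≤ 2 * (kB S n ^ (n + 3) * kB S n) ^ 2 :=
  (norm_pg _ _).trans ((norm_tp _ _ _).trans (by
    have := hd.one (S := S)
    rw [sq, ← mul_assoc]
    gcongr
    exacts [norm_rr F c, norm_W hd h hS hd.w x, norm_W hd h hS hd.w' x]))

theorem dom_gh {w w' : List (La M)} (hw : LLSz n w) (hw' : LLSz n w') {l : M → c.m.A}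
    (hl : ∀ x, ‖l x‖ ≤ R) :
    Dom F (kD (kB S n) n * R ^ 2) fun x => ‖gh F c d.f d.f' w w' (adl F c l) x‖ ^ 2 := by
  have k1 := hd.one (S := S)
  have a1 := dom_gc (r := rr F c) h.bmp (h.mcA _) k1 (norm_rr F c) hS.l
    (hd.W _ hw).2 (norm_adl hl (norm_W hd h hS hw'))
  have a2 := dom_gc (r := rr F c) h.bmp (h.mcA _) k1 (norm_rr F c) hS.r
    (hd.xw _).2.2 ((hd.W _ hw).bk h.bmp (h.mcA _) k1 (norm_adl hl
      ((Cy.Sz.wl _ hw').wd h.bmp (h.mcA _) k1 hS.r)))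
  refine ((a1.mul zero_le_two).add (a2.mul zero_le_two)).mono ?_ fun x => Mp86.normSq_add_le _ _
  have k2 : 1 ≤ 4 * kB S n ^ 2 := by nlinarith
  have e1 := pow_le_pow_right₀ k2 (hd.W (S := S) (Vc F c) hw).1
  have e2 := pow_le_pow_right₀ k2 (hd.xw (S := S) (Vc F c)).2.1
  rw [kD, add_mul]
  refine add_le_add ((mul_le_mul_of_nonneg_left (mul_le_mul_of_nonneg_right
    (mul_le_mul_of_nonneg_left e1 (by norm_num)) (sq_nonneg _)) zero_le_two).trans_eq (by ring))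
    ((mul_le_mul_of_nonneg_left (mul_le_mul_of_nonneg_right
    (mul_le_mul_of_nonneg_left e2 (by norm_num)) (sq_nonneg _)) zero_le_two).trans_eq (by ring))

/-- **the gradient is dominated**, uniformly in the configuration -/
theorem dom_sA {l : M → c.m.A} (hl : ∀ x, ‖l x‖ ≤ R) :
    Dom F (4 * kD (kB S n) n * R ^ 2) fun x => ‖(d.sed F).sA c l x‖ ^ 2 :=
  (((dom_gh hd h hS hd.w' hd.w hl).mul zero_le_two).add
    ((dom_gh hd h hS hd.w hd.w' hl).mul zero_le_two)).mono (le_of_eq (by ring)) fun x => by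
    have := Mp86.normSq_add_le (gh F c d.f d.f' d.w' d.w (adl F c l) x)
      (-gh F c d.f d.f' d.w d.w' (adl F c l) x)
    rwa [← sub_eq_add_neg, norm_neg] at this

end sz

theorem sb_cy (hB : B.OK I) (hT : ∃ C, G.F.Tame C) {N : ℕ} (hd : d.Sz G.F N)
    (hS : ∀ c : Cfg M ι lam r, c.Adm B G → BB G.F c d (kB S N))
    (hc : ∀ t ∈ d.w, LaC t) (hc' : ∀ t ∈ d.w', LaC t) :
    SB (r := r) B G (d.sed G.F) (1 + 2 * (Cyc79.kB S N ^ (N + 3) * Cyc79.kB S N) ^ 2 +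
      4 * Cyc79.kD (Cyc79.kB S N) N) := by
  have a1 : 0 ≤ Cyc79.kD (Cyc79.kB S N) N := by unfold Cyc79.kD; positivity
  have a2 := sq_nonneg (Cyc79.kB S N ^ (N + 3) * Cyc79.kB S N)
  have p := fun (c : Cfg M ι lam r) (a : c.Adm B G) => Cyc79.pq_conn hB hT a.ok a.conn
  refine ⟨by linarith, fun c a => ?_, fun c a x => (norm_s hd (p c a) (hS c a) x).trans (by linarith),
    fun _ _ => rfl, fun c a l C hl => (dom_sA hd (p c a) (hS c a) hl).mono (by gcongr; linarith)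
      fun _ => le_rfl⟩
  have e : ∀ w : List (La M), (∀ t ∈ w, LaC t) → Continuous
      (Cyc79.wv G.F c (Cyc79.bf G.F c d.f' d.f) (w ++ Cyc79.xw d.f d.f')) := fun w hw => by
    induction w with
    | nil => exact hd.sep.c.smul (sm_res _ _ _).continuous
    | cons t w ih =>
      cases t with
      | mul f => exact Continuous.smul (hw (.mul f) (by simp)) (ih fun s hs => hw s (by simp [hs]))
      | G => exact (sm_res _ _ _).continuous
  exact (p c a).sm.continuous.clm_apply ((ContinuousLinearMap.adjoint.continuous.comp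
    ((Cyc79.rr G.F c).flip.continuous.comp (e _ hc))).clm_apply (e _ hc'))

variable [DecidableEq ι] {τ : M → ℝ} {a₀ : ι} {O : Set M}

theorem cy_tr (h : CO B G c) (hd : d.OK G.F) (hn : d.Sz G.F n) (hS : BB G.F c d (kB S n))
    (hp : d.Par G.F a₀ O) (hdv : ∀ x ∈ O, G.F.dv a₀ x = 0)
    (hc : ∀ x ∈ O, ∀ a l, G.F.c a₀ a l x = 0) {α : M → Fm ι c.m.A} (φ : M → c.m.V) (sα : Sm I α)
    (hα : ∀ x ∈ O, ∀ a, α x a = c.m.Fg G.F c.W x (a₀, a)) {Q : (M → c.m.A) → Prop}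
    (hQ : ∀ u, Q u → G.F.Cb u) (hq : Q ((d.sed G.F).s c)) :
    RS.Tr G.F (c.m.adW c.W) Q a₀ O α φ (kT (kB S n) (n + 3)) (d.rs G.F c) := by
  have k1 := hn.one (S := S)
  refine ⟨hq, fun x => (norm_s hn h.pq hS x).trans (le_add_of_nonneg_left (by positivity)),
    fun l hl => Cy.sm_sA h hd (hQ l hl), fun _ _ => contMDiff_const, fun l R θ ζ hl hR hθ => ?_⟩
  have m : ∀ {w : List (SL M (Vc G.F c))} {j}, WL (kB S n) j w → j ≤ n + 3 →
    WL (kB S n) (n + 3) w := fun h e => ⟨h.1.trans e, h.2⟩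
  have H : Ht G.F (c.m.adW c.W) c.m.pg (fun x => adR _ (c.m.pg x (l x))) d.f d.f' d.w d.w'
      (rr G.F c) a₀ O α (kB S n) (2 * |R|) (n + 3) :=
    ⟨h.hs hd.sep hd.w hd.w' (hQ l hl), hdv, hc, sα,
      fun u hu x hx a => by rw [hα x hx]; exact h.curv_qi hu a₀ a x, hp.f, hp.f', hp.w, hp.w', k1,
      by positivity, hS.l, hS.r,
      fun x => (norm_adR _).trans (by linarith [norm_pg x (l x), hR x, le_abs_self R]),
      m (Cy.Sz.wl _ hn.w) (by omega), m (Cy.Sz.wl _ hn.w') (by omega), hn.W _ hn.w, hn.W _ hn.w',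
      m (hn.xw _).2 (by omega)⟩
  have e := H.tr hθ
  simp only [Cy.rs, Cy.nab_s h hd (cb_sm (hQ l hl))]
  simp only [Cy.sed, Pi.zero_apply, inner_zero_right, add_zero, gh_eq]
  refine e.trans ?_
  rw [← mul_assoc (kT _ _)]
  refine mul_le_mul_of_nonneg_right ?_ (nz_nonneg (F := G.F))
  rw [kT, ← sq_abs R]
  set k := kB S n
  set y := k ^ (n + 3)
  have a1 : (y * (2 * |R| * (y * k))) ^ 2 + k ^ 2 ≤ ((y * (2 * (y * k))) ^ 2 + k ^ 2) * (|R| ^ 2 + 1) := by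
    nlinarith [sq_nonneg (y * (2 * (y * k))), sq_nonneg (k * |R|)]
  have a2 := mul_le_mul_of_nonneg_left a1
    (show 0 ≤ 280 * ((n + 3 : ℕ) : ℝ) * k ^ (2 * (n + 3)) by positivity)
  have a3 := mul_le_mul_of_nonneg_left (show 2 * |R| ≤ |R| ^ 2 + 1 by nlinarith [sq_nonneg (|R| - 1)])
    (show 0 ≤ k * (y * (y * (y * k))) by positivity)
  nlinarith [show 0 ≤ 2 * (y * k) ^ 2 * (|R| ^ 2 + 1) by positivity]

theorem tr_cy (h : Gd B G c) (P : PN B G τ a₀ O) (hS : BB G.F c d (kB S n)) (hd : d.OK G.F)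
    (sd : d.Sz G.F n) (pd : d.Par G.F a₀ O) (hk : Cyc79.kT (Cyc79.kB S n) (n + 3) ≤ k)
    (hn : (n : ℝ) ≤ k) (k1 : 1 ≤ k) {w : List (La M)} (ht : ∀ t ∈ w, t.OK G.F) (hs : LLSz n w)
    (hp : ∀ t ∈ w, Pr G.F a₀ O t) : RS.Tr G.F (c.m.adW c.W) (QP G.F c.m.pg) a₀ O (xA G.F c τ)
      (xP G.F c τ) (kw k n) (((d.sed G.F).wd G.F w).rs c) := by
  rw [rs_wd]
  exact (((cy_tr h.toCO hd sd hS pd P.dv P.c1 _ (P.sm_xA h.adm)
    (fun x hx => P.toPrd.xA_eq c hx) (fun _ hu => hu.1) (h.q_cy hd)).mono hk).wd (h.tzA P) k1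
    (Gd.tl_la hn ht hs hp)).mono (Gd.kw_mono k1 (by rw [List.length_map]; exact hs.1))

end Crest.Agent.X212.Dgr80.Uk
end
end

-- ▼ part X212/Dgr80/Uk2

/-!
# Row 212, LOC-K (helper80): the constants of the neck densities do not depend on the ambient manifold
-/

set_option autoImplicit false
set_option linter.unusedSectionVars false
open Set Filter Topology Module MeasureTheory
open scoped Manifold ContDiff InnerProductSpace Classical

noncomputable section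

namespace Crest.Agent.X212.Dgr80.Uk
open An Wz78 Wrd81 Nd18 Nka63 Cyf70
open Mp86 hiding fn_χ fn_ext la_sz ll_sz nk_geo gd_fn sc_ext lt_sz sw_sz sep_sz sb_cyc db_cut db_pk
  db_dg sb_cy Gd
open Cyc79 (Cy Cu SepN)

variable {E3 : Type} [NormedAddCommGroup E3] [NormedSpace ℝ E3] [FiniteDimensional ℝ E3]
  [MeasurableSpace E3] [BorelSpace E3]
  {H3 : Type} [TopologicalSpace H3] {I3 : ModelWithCorners ℝ E3 H3} [I3.Boundaryless]
  {Y : Type} [TopologicalSpace Y] [ChartedSpace H3 Y] [IsManifold I3 ∞ Y] [T2Space Y]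
  [MeasurableSpace Y] [BorelSpace Y] [SecondCountableTopology Y] [CompactSpace Y]
  {κ : Type} [Fintype κ] {lam : Type} [Fintype lam]

/-- all necks (with a number of parameters) -/
abbrev NS (D : YD I3 Y κ lam) : Type 1 := Σ p : ℝ × ℕ, NK D p.1

variable {D : YD I3 Y κ lam}

theorem fn_χ : ∀ᶠ n : ℕ in atTop, ∀ X : NS D, Fn X.2.G.F n X.2.K.χ :=
  let ⟨_, h⟩ := cbs_χ D
  (ev_nat _).mono fun _ hn X => (fn_cbs (h X.2.K)).mono hn

theorem fn_ext {f : Y → ℝ} (hf : Sm I3 f) :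
    ∀ᶠ n : ℕ in atTop, ∀ X : NS D, Fn X.2.G.F n (X.2.K.ext f) :=
  let ⟨_, h⟩ := cbs_ext D hf
  (ev_nat _).mono fun _ hn X => (fn_cbs (h X.2.K)).mono hn

theorem la_sz {t : La Y} (ht : laOK I3 t) :
    ∀ᶠ n : ℕ in atTop, ∀ X : NS D, LaSz n (X.2.K.la t) ∧ LaC (X.2.K.la t) := by
  cases t with
  | mul f => exact ((ev_nat 1).and (fn_ext ht)).mono fun n h X =>
      ⟨(h.2 X).abs_le h.1, (h.2 X).sm.continuous⟩
  | G => exact .of_forall fun _ _ => ⟨trivial, trivial⟩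

theorem ll_sz {w : List (La Y)} (h : ∀ t ∈ w, laOK I3 t) : ∀ᶠ n : ℕ in atTop, ∀ X : NS D,
    LLSz n (w.map X.2.K.la) ∧ ∀ t ∈ w.map X.2.K.la, LaC t :=
  (ev_list fun t ht => la_sz (D := D) (h t ht)).mono fun _ k X =>
    ⟨⟨by simpa using k.1, List.forall_mem_map.2 fun t ht => (k.2 t ht X).1⟩,
      List.forall_mem_map.2 fun t ht => (k.2 t ht X).2⟩

variable (hD : D.OK)
include hD

/-- the geometry of the neck is bounded -/
theorem nk_geo : ∃ L, 0 ≤ L ∧ ∀ X : NS D, ∀ x ∈ X.2.K.ψ.target,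
    (∀ a b k, |X.2.G.F.Gam a b k x| ≤ L) ∧ (∀ a, |X.2.G.F.dv a x| ≤ L) ∧ ∀ a, ‖X.2.G.a a x‖ ≤ L := by
  have f : ∀ {N : Type} [NormedAddCommGroup N] [NormedSpace ℝ N] {f : Y → N}, Sm I3 f →
      D.Z.Cb fun x => f x.1 := fun h => Cht98.Cb_fst _ (Sob92.Cb_of_compact h)
  have p : ∀ a b, D.Z.Cb (D.Z.P a b) := fun a b => by
    cases a <;> cases b
    exacts [Sob92.Cb_const _, Sob92.Cb_const _, Sob92.Cb_const _, f (D.F.P_sm _ _)]
  have c : ∀ a b l, D.Z.Cb (D.Z.c a b l) := fun a b l => by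
    cases a <;> cases b <;> cases l <;> first | exact Sob92.Cb_const _ | exact f (D.F.c_sm _ _ _)
  have d : ∀ a, D.Z.Cb (D.Z.dv a) := fun a => by
    cases a
    exacts [Sob92.Cb_const _, f (D.F.dv_sm _)]
  have e : ∀ a, D.Z.Cb (D.G.a a) := fun a => by
    cases a
    exacts [Sob92.Cb_const _, f (sm_a hD _)]
  obtain ⟨L, h0, h1, h2, h3, h4⟩ := ((eventually_ge_atTop (0 : ℝ)).and
    ((eventually_all.2 fun a => eventually_all.2 fun b => eventually_all.2 fun l =>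
      ev_cb (Sob92.Cb_D (p b l) a)).and ((eventually_all.2 fun a => eventually_all.2 fun b =>
        eventually_all.2 fun l => ev_cb (c a b l)).and ((eventually_all.2 fun a => ev_cb (d a)).and
          (eventually_all.2 fun a => ev_cb (e a)))))).exists
  refine ⟨3 * L, by linarith, fun X x hx => ⟨fun a b k => ?_, fun a => ?_, fun a => ?_⟩⟩
  · rw [X.2.K.rel'.Gam hx, Fr.Gam, abs_le]
    simp only [Real.norm_eq_abs, abs_le] at h1 h2
    constructor <;> linarith [h1 a b k (X.2.K.ψ.symm x), h1 b a k (X.2.K.ψ.symm x),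
      h1 k a b (X.2.K.ψ.symm x), h2 a b k (X.2.K.ψ.symm x), h2 a k b (X.2.K.ψ.symm x),
      h2 b k a (X.2.K.ψ.symm x), (h1 a b k (X.2.K.ψ.symm x)).1]
  · rw [X.2.K.rel'.dv hx X.2.hG.vol hD.G.vol]; exact (h3 a _).trans (by linarith)
  · rw [← X.2.K.ψ.right_inv hx, X.2.K.a a _ (X.2.K.ψ.map_target hx)]; exact (h4 a _).trans (by linarith)

theorem gd_fn {g : Option (Y → ℝ)} (hg : OF I3 g) :
    ∀ᶠ n : ℕ in atTop, ∀ X : NS D, Mp86.Gd X.2.G.F n (X.2.K.fn g) := by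
  obtain ⟨L, h0, hL⟩ := nk_geo hD
  obtain ⟨C, hC⟩ := cbs_D_fn D hg
  refine (ev_nat _).mono fun n hn X => (gd_cbs (X.2.K.cd_fn hg).1 (hC X.2.K) h0 fun x a b k =>
    (em _).symm.imp (fun hx => ?_) fun hx => (hL X x hx).1 a b k).mono hn
  cases g with
  | some g => exact X.2.D_off (fun y hy => X.2.K.ext_zero g fun e => hy (dp_mono _ (by norm_num) e)) hx b
  | none =>
    cases b with
    | none => exact (congrFun X.2.K.D_τ_none x).trans (dtf_zero X.2.K.len fun e =>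
        hx (X.2.K.dp_sub one_half_pos e))
    | some b => exact congrFun (X.2.K.D_τ_some b) x

theorem sc_ext {s : Y → Eu lam} (hs : Sm I3 s) :
    ∀ᶠ n : ℕ in atTop, ∀ X : NS D, Sc X.2.G n (X.2.K.ext s) := by
  obtain ⟨L, h0, hL⟩ := nk_geo hD
  obtain ⟨C, hC⟩ := cbs_ext D hs
  exact (ev_nat _).mono fun n hn X => (sc_cbs (hC X.2.K) h0 fun x a => (em _).symm.imp
    (fun hx => X.2.K.ext_zero s fun e => hx (X.2.K.dp_sub one_pos e))
    fun hx => (hL X x hx).2.2 a).mono hn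

theorem lt_sz {t : YL Y} (ht : t.OK I3) :
    ∀ᶠ n : ℕ in atTop, ∀ X : NS D, LtSz X.2.G.F n (X.2.K.lt t) := by
  cases t with
  | mul f => exact fn_ext ht
  | cl g => exact gd_fn hD ht
  | im => exact .of_forall fun _ _ => trivial
  | G => exact .of_forall fun _ _ => trivial

theorem sw_sz {u : List (YL Y)} (h : ∀ t ∈ u, YL.OK I3 t) :
    ∀ᶠ n : ℕ in atTop, ∀ X : NS D, SWSz X.2.G.F n (u.map X.2.K.lt) :=
  (ev_list fun t ht => lt_sz hD (h t ht)).mono fun _ k X =>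
    ⟨by simpa using k.1, List.forall_mem_map.2 fun t ht => k.2 t ht X⟩

theorem sep_sz {f f' : Y → ℝ} (h : Cyc79.Sep D.F.toPre f f') : ∀ᶠ n : ℕ in atTop, ∀ X : NS D,
    SepN X.2.G.F n (X.2.K.ext f) (X.2.K.ext f') ∧ ∃ φ, Cu X.2.G.F n φ ∧
      (∀ x, X.2.K.ext f x ≠ 0 → 1 ≤ φ x) ∧ (∀ x, X.2.K.ext f' x ≠ 0 → φ x ≤ 0) ∧
      ∀ x ∉ X.2.K.dp (1 / 2), φ x ≤ 0 := by
  obtain ⟨⟨_, a, -⟩, ⟨_, b, -⟩, φ, ⟨_, h1, -⟩, h2, h3⟩ := h
  obtain ⟨L, h0, hL⟩ := nk_geo hD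
  obtain ⟨C, hC⟩ := cbs_ex2 D h1
  filter_upwards [ev_nat 1, fn_ext (D := D) a, fn_ext (D := D) b, ev_nat _] with n n1 a b hn X
  have z : ∀ y ∉ X.2.K.dp (1 / 2), ex2 X.2.K φ y = 0 := fun y hy => by
    by_cases e : y ∈ X.2.K.ψ.target
    · rw [ex2, push_of_mem _ _ e, X.2.K.snd_symm e, dtf_zero X.2.K.len hy, zero_smul]
    · exact push_of_notMem _ _ e
  have c := (cu_cbs (hC X.2.K) h0 fun x a => (em _).symm.imp (fun hx => X.2.D_off z hx a)
    fun hx => (hL X x hx).2.1 a).mono hn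
  have e1 : ∀ x, X.2.K.ext f x ≠ 0 → 1 ≤ ex2 X.2.K φ x := fun x hx => by
    rw [ex2_eq _ φ (mem_O_of_χ _ (left_ne_zero_of_smul hx))]
    exact h2 _ (right_ne_zero_of_smul hx)
  have e2 : ∀ x, X.2.K.ext f' x ≠ 0 → ex2 X.2.K φ x ≤ 0 := fun x hx => by
    rw [ex2_eq _ φ (mem_O_of_χ _ (left_ne_zero_of_smul hx))]
    exact h3 _ (right_ne_zero_of_smul hx)
  exact ⟨⟨n1, (a X).sm.continuous, (b X).sm.continuous, (a X).abs_le n1, (b X).abs_le n1, _, c, e1,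
    e2⟩, _, c, e1, e2, fun x hx => (z x hx).le⟩

/-- the Sobolev inequality on necks -/
theorem l4_nk : ∃ S > 0, ∀ X : NS D, Cht98.L4On X.2.G.F.toPre (X.2.K.dp (1 / 2)) S :=
  let ⟨C, h⟩ := Dec35.tame_Z hD
  ⟨max 1 (C 0), lt_max_of_lt_left one_pos, fun X => Cht98.L4On.iso (K' := univ)
    (Sob92.iso_symm X.2.K.iso) (X.2.K.dp_sub one_half_pos) (mapsTo_univ _ _) fun f a b _ =>
      ((l4_of_tame h).mono (le_max_right _ _)) f a b⟩

theorem bs_nk {f f' : Y → ℝ} (h : Cyc79.Sep D.F.toPre f f') : ∀ᶠ n : ℕ in atTop, ∀ (X : NS D)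
    (c : Cfg X.2.M (Option κ) lam X.1.2), c.Adm X.2.B X.2.G → ∀ z,
      ‖Cyc79.bf X.2.G.F c (X.2.K.ext f) (X.2.K.ext f') z‖ ≤ Cyc79.kB 0 n := by
  obtain ⟨S, S0, hS⟩ := l4_nk hD
  obtain ⟨m, hm⟩ := (sep_sz hD h).exists
  refine (ev_nat (kU S m)).mono fun n hn X c a z => ?_
  obtain ⟨s, φ, p1, p2, p3, p4⟩ := hm X
  exact (bs_loc (Cyc79.pq_conn X.2.hB X.2.hT a.ok a.conn) X.2.K.isClosed_dp (hS X) S0 s.one s.b s.c'
    s.b' p1 p2 p3 p4 z).trans (hn.trans (Cyc79.le_kB n.cast_nonneg).2)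

/-- the size of a seed -/
theorem cy_nk {d : Cy Y} (hd : d.OK D.F) : ∀ᶠ n : ℕ in atTop, ∀ X : NS D,
    (X.2.K.cyc d).Sz X.2.G.F n ∧ ((∀ t ∈ (X.2.K.cyc d).w, LaC t) ∧ ∀ t ∈ (X.2.K.cyc d).w', LaC t) ∧
    ∀ c : Cfg X.2.M (Option κ) lam X.1.2, c.Adm X.2.B X.2.G →
      BB X.2.G.F c (X.2.K.cyc d) (Cyc79.kB 0 n) := by
  filter_upwards [sep_sz hD hd.sep, ll_sz (D := D) fun t ht => laOK_of (hd.w t ht),
    ll_sz (D := D) fun t ht => laOK_of (hd.w' t ht), bs_nk hD hd.sep.symm, bs_nk hD hd.sep]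
    with n a b c l r X
  exact ⟨⟨(a X).1, (b X).1, (c X).1⟩, ⟨(b X).2, (c X).2⟩, fun x k => ⟨l X x k, r X x k⟩⟩

theorem sb_cyc {d : Cy Y} (hd : d.OK D.F) {w : List (La Y)} (hw : ∀ t ∈ w, laOK I3 t) :
    ∃ k, ∀ X : NS D, SB (r := X.1.2) X.2.B X.2.G
      (((X.2.K.cyc d).sed X.2.G.F).wd X.2.G.F (w.map X.2.K.la)) k := by
  obtain ⟨n, n1, a, e⟩ := ((eventually_ge_atTop 1).and ((cy_nk hD hd).and (ll_sz (D := D) hw))).exists
  exact ⟨_, fun X => (sb_cy X.2.hB X.2.hT (a X).1 (a X).2.2 (a X).2.1.1 (a X).2.1.2).wd X.2.hb n1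
    (e X).1 (e X).2⟩

omit hD in
theorem db_cut {d : ∀ X : NS D, Den X.2.M (Option κ) lam X.1.2} (h : ∃ k, ∀ X, DB X.2.B X.2.G (d X) k) :
    ∀ᶠ k in atTop, ∀ X : NS D, DB X.2.B X.2.G (dcut X.2.K.χ (d X)) k := by
  obtain ⟨k, h⟩ := h
  obtain ⟨n, n1, a⟩ := ((ev_nat 1).and (fn_χ (D := D))).exists
  exact (eventually_ge_atTop _).mono fun _ hk X => ((h X).cut (a X) n1 fun x =>
    (abs_of_nonneg (χ_mem X.2.K x).1).trans_le (χ_mem X.2.K x).2).mono hk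

theorem db_pk {T : ∀ X : NS D, Pk X.2.M lam} (hT : ∀ᶠ n : ℕ in atTop, ∀ X, PkSz X.2.G n (T X))
    {u v : List (YL Y)} (hu : ∀ t ∈ u, YL.OK I3 t) (hv : ∀ t ∈ v, YL.OK I3 t) :
    ∀ᶠ k in atTop, ∀ X : NS D, DB (r := X.1.2) X.2.B X.2.G
      (dcut X.2.K.χ (Den.sw X.2.G.F (T X) (u.map X.2.K.lt) (v.map X.2.K.lt))) k := by
  obtain ⟨n, n1, a, b, c⟩ := ((eventually_ge_atTop 1).and (hT.and ((sw_sz hD hu).and
    (sw_sz hD hv)))).exists
  exact db_cut ⟨_, fun X => db_sw X.2.hb X.2.hB n1 (a X) (b X) (c X)⟩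

theorem db_den {d : YDen Y} (hd : d.OK D.F) : ∀ᶠ k in atTop, ∀ X : NS D,
    DB (r := X.1.2) X.2.B X.2.G (X.2.K.den d) k := by
  cases d with
  | sw a b => exact db_pk hD (T := fun _ => .one) (.of_forall fun _ _ => trivial) hd.1 hd.2
  | cy d w d' w' =>
    obtain ⟨k, a⟩ := sb_cyc hD hd.1 hd.2.1
    obtain ⟨k', b⟩ := sb_cyc hD hd.2.2.1 hd.2.2.2
    exact db_cut ⟨_, fun X => ((a X).mono (le_max_left k k')).den ((b X).mono (le_max_right k k'))⟩

omit hD in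
theorem tr_cut {d : ∀ X : NS D, Den X.2.M (Option κ) lam X.1.2} (h : ∃ k, ∀ X, TrX X.1.2 X.2 (d X) k) :
    ∀ᶠ k in atTop, ∀ X : NS D, TrX X.1.2 X.2 (dcut X.2.K.χ (d X)) k :=
  let ⟨_, h⟩ := h
  (eventually_ge_atTop _).mono fun _ hk X c hc => ((h X c hc).cut (isOpen_O X.2.K) X.2.K.cb_χ (fun x =>
    (abs_of_nonneg (χ_mem X.2.K x).1).trans_le (χ_mem X.2.K x).2) fun _ => χ_one X.2.K).mono hk

theorem tr_pk {T : ∀ X : NS D, Pk X.2.M lam} (hT : ∀ᶠ n : ℕ in atTop, ∀ X, PkSz X.2.G n (T X))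
    (oT : ∀ X, (T X).OK X.2.G.F) (pT : ∀ X, (T X).Pr none (O X.2.K 2) X.2.G) {u v : List (YL Y)}
    (hu : ∀ t ∈ u, YL.OK I3 t) (hv : ∀ t ∈ v, YL.OK I3 t) : ∀ᶠ k in atTop, ∀ X : NS D,
      TrX X.1.2 X.2 (dcut X.2.K.χ (Den.sw X.2.G.F (T X) (u.map X.2.K.lt) (v.map X.2.K.lt))) k := by
  obtain ⟨n, n1, a, b, c⟩ := ((eventually_ge_atTop 1).and (hT.and ((sw_sz hD hu).and
    (sw_sz hD hv)))).exists
  exact tr_cut ⟨_, fun X _ h => h.tr_sw (pn2 hD X.2) n1 (oT X) (X.2.K.ok_sw hu) (X.2.K.ok_sw hv) (a X)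
    (b X) (c X) (pT X) (pr_lt hD X.2 hu) (pr_lt hD X.2 hv)⟩

theorem tr_cyc {d : Cy Y} (hd : d.OK D.F) {w : List (La Y)}
    (hw : ∀ t ∈ w, laOK I3 t) : ∀ᶠ k in atTop, ∀ (X : NS D) (c : Cfg X.2.M (Option κ) lam X.1.2),
      Gd X.2.B X.2.G c → RS.Tr X.2.G.F (c.m.adW c.W) (QP X.2.G.F c.m.pg) none (O X.2.K 2)
        (xA X.2.G.F c X.2.K.τ) (xP X.2.G.F c X.2.K.τ) k
        ((((X.2.K.cyc d).sed X.2.G.F).wd X.2.G.F (w.map X.2.K.la)).rs c) := by
  have o := fun t ht => laOK_of (hd.w t ht)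
  have o' := fun t ht => laOK_of (hd.w' t ht)
  obtain ⟨n, a, e⟩ := ((cy_nk hD hd).and (ll_sz (D := D) hw)).exists
  obtain ⟨k, k1, k2, k3⟩ := ((eventually_ge_atTop (Cyc79.kT (Cyc79.kB 0 n) (n + 3))).and
    ((eventually_ge_atTop (n : ℝ)).and (eventually_ge_atTop (1 : ℝ)))).exists
  exact (eventually_ge_atTop _).mono fun _ hk X c h => (tr_cy h (pn2 hD X.2) ((a X).2.2 c h.adm)
    (ok_cyc X.2.K hd) (a X).1 ⟨fun _ => D_ext_none_zero X.2.K hd.sep.1.choose_spec.1,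
      fun _ => D_ext_none_zero X.2.K hd.sep.2.1.choose_spec.1, pr_la X.2 o, pr_la X.2 o'⟩ k1 k2 k3
    (X.2.K.ok_las hw) (e X).1 (pr_la X.2 hw)).mono hk

theorem tr_den {d : YDen Y} (hd : d.OK D.F) : ∀ᶠ k in atTop, ∀ X : NS D,
    TrX X.1.2 X.2 (X.2.K.den d) k := by
  cases d with
  | sw a b =>
    exact tr_pk hD (T := fun _ => .one) (.of_forall fun _ _ => trivial) (fun _ => trivial)
      (fun _ => trivial) hd.1 hd.2
  | cy d w d' w' =>
    obtain ⟨k, k1, a, b⟩ := ((eventually_ge_atTop (1 : ℝ)).and ((tr_cyc hD hd.1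
      hd.2.1).and (tr_cyc hD hd.2.2.1 hd.2.2.2))).exists
    exact tr_cut ⟨_, fun X c h => h.tr_sed (pn2 hD X.2) k1 (a X c h) (b X c h)⟩

omit hD in
variable (D) in
/-- `k` bounds the density `d` on all necks -/
def _root_.Crest.Agent.X212.Dgr80.UK (d : YDen Y) (k : ℝ) : Prop := ∀ (S : ℝ) (r : ℕ) (X : NK D S),
  DB (r := r) X.B X.G (X.K.den d) k ∧ TrX r X (X.K.den d) k

/-- **LOC-K** -/
theorem _root_.Crest.Agent.X212.Dgr80.uk {d : YDen Y} (hd : d.OK D.F) : ∀ᶠ k in atTop, UK D d k :=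
  ((db_den hD hd).and (tr_den hD hd)).mono fun _ h S r X => ⟨h.1 ⟨(S, r), X⟩, h.2 ⟨(S, r), X⟩⟩

variable {N : ND Y lam} (hN : N.OK D)
include hN

theorem dg_nk (j : N.J) : ∀ᶠ k in atTop, ∀ X : NS D,
    DB (r := X.1.2) X.2.B X.2.G ((N.dg X.2.K).d j) k ∧ TrX X.1.2 X.2 ((N.dg X.2.K).d j) k := by
  simp only [forall_and]
  rcases j with j | j | j
  · exact (db_den hD (hN.d0 j)).and (tr_den hD (hN.d0 j))
  · exact (db_pk hD (T := fun X => .re (X.2.K.ext (N.d2 j).s)) (sc_ext hD (hN.d2 j).1)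
      (hN.d2 j).2.1 (hN.d2 j).2.2).and (tr_pk hD (T := fun X => .re (X.2.K.ext (N.d2 j).s))
      (sc_ext hD (hN.d2 j).1) (fun X => X.2.K.cb_ext (hN.d2 j).1) (fun X => pr_ext X.2 (hN.d2 j).1)
      (hN.d2 j).2.1 (hN.d2 j).2.2)
  · exact (db_pk hD (T := fun X => .im (X.2.K.ext (N.d2 j).s)) (sc_ext hD (hN.d2 j).1)
      (hN.d2 j).2.1 (hN.d2 j).2.2).and (tr_pk hD (T := fun X => .im (X.2.K.ext (N.d2 j).s))
      (sc_ext hD (hN.d2 j).1) (fun X => X.2.K.cb_ext (hN.d2 j).1) (fun X => pr_ext X.2 (hN.d2 j).1)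
      (hN.d2 j).2.1 (hN.d2 j).2.2)

/-- **EN1** with a constant that only depends on the cross-section -/
theorem _root_.Crest.Agent.X212.Dgr80.en1U : ∃ sz : YW I3 Y → ℝ, ∀ R : ℝ, ∃ C, ∀ (S : ℝ) (r n : ℕ)
    (q : YW I3 Y →₀ ℝ) (ν : ℝ) (X : NK D S) (c : Cfg X.M (Option κ) lam r)
    (σ ρ : Pt X.M (Option κ) lam r n) (e : ℝ), Nd18.Sml sz q → |ν| ≤ R → E1 (N.smul ν) q X c σ ρ e →
      ∫ x, X.K.cut 3 (X.K.τ x) * en X.G.F c X.K.τ x ∂X.G.F.μ ≤
        16 * Real.pi ^ 2 * ∫ x, X.K.cut 3 (X.K.τ x) * c.m.kd X.B X.G.F c.W x ∂X.G.F.μ +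
          C * (1 + e) := by
  obtain ⟨C, C1, hC⟩ := exists_ew hD hN
  have v := vY_nonneg D
  have k1 : 1 ≤ 16 * (vY D * C) + 1 := le_add_of_nonneg_left (by positivity)
  refine ⟨fun T => (16 * (vY D * C) + 1) * sk T, fun R => ?_⟩
  obtain ⟨k, k0, h⟩ := ((eventually_ge_atTop (0 : ℝ)).and (eventually_all.2 (dg_nk hD hN))).exists
  obtain ⟨m, m1, a, b⟩ := ((eventually_ge_atTop 1).and ((gd_fn (g := none) hD
    (by simp [OF])).and (Mp86.ev_nat (cb N.δ 1)))).exists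
  have hφ := hN.sm.comp (Mp86.cd_cx (N := N))
  obtain ⟨L, L1, hL⟩ := Mp86.ball_bd hφ (|k| * vY D)
  have R1 : 1 ≤ (|R| + 1) * L := one_le_mul_of_one_le_of_one_le (by linarith [abs_nonneg R]) L1
  set K : ℝ := 64 * m * (2 ^ Fintype.card N.J * ∑ _j : N.J, k * ((m * ((|R| + 1) * L)) ^ 2 * m))
  set W : ℝ := Fintype.card N.J * (cW N.δ k ((|R| + 1) * L) * vY D) + 80 * (2 * cA * ((|R| + 1) * L))
  refine ⟨2 * ((4 * K + 4) * (vY D * (80 * cA)) + cA + W + 2), fun S r n q ν X c σ ρ e hq hν => ?_⟩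
  have h1 := fun j X => (h j ⟨(S, r), X⟩).1
  have h2 := fun j X => (h j ⟨(S, r), X⟩).2
  replace a := fun X => a ⟨(S, r), X⟩
  clear h
  intro h
  have sφ : ContDiff ℝ ∞ ((N.smul ν).dg (r := r) X.K).φ := contDiff_const.mul hφ
  have l : ∀ x : N.J → ℝ, ‖x‖ ≤ |k| * vY D → |ν * (N.φ ∘ N.cx) x| ≤ (|R| + 1) * L ∧
      ‖fderiv ℝ (fun x => ν * (N.φ ∘ N.cx) x) x‖ ≤ (|R| + 1) * L := fun x hx => by
    have n1 : |ν| ≤ |R| + 1 := by linarith [le_abs_self R]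
    refine ⟨(abs_mul _ _).trans_le (mul_le_mul n1 (hL x hx).1 (abs_nonneg _) (by positivity)), ?_⟩
    exact (congrArg _ ((hφ.differentiable (by simp) x).hasFDerivAt.const_mul ν).fderiv).trans_le
      ((norm_smul _ _).trans_le (mul_le_mul n1 (hL x hx).2 (norm_nonneg _) (by positivity)))
  have hK : B0 X.B X.G ((N.smul ν).q1 X.K : Pt _ _ _ r n) K :=
    Mp86.dg_b0 X.hb X.hB m1 (a X) (fun j => h1 j X) k0 (fun _ => hN.δ0) (fun _ => b) R1 fun c h =>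
      (co_bd hN.δ0 (N := (N.smul ν).dg X.K) rfl rfl (fun _ => rfl) (fun j => (h1 j X).ct c h) (fun j => (h1 j X).le c h)
        (fun j => Mp86.den_off X j c) sφ l).2.2.2
  have P := pn2 hD X
  have A := h.gd.adm
  obtain ⟨ϖ, hϖ⟩ := h.amb
  have T := fun i : ℕ => sb_getD X.K.p X.K.q (-i) i
  have w := fun i => (T i).work P.dv hN.δ0 (N := (N.smul ν).dg X.K) (P.sm_xA A) (P.sm_xP A) rfl rfl
    (fun _ => rfl) (fun j => h2 j X c h.gd) k0 (fun j => Mp86.den_off X j c) sφ l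
  have key := le_of_tendsto_of_tendsto' ((tend_θ X (P.sm_en A).continuous h.en).const_mul _)
    (((tend_θ X (P.sm_kd A).continuous h.kd).const_mul _).add_const _) fun i =>
      h.loc hD hN.δ0 k1 hq (T i) hK (hC S r X c ϖ _ A hϖ ⟨h.en, le_rfl⟩) (W := W) (w i)
  have e0 := h.ρ.nonneg fun x => mul_nonneg ct_mem.1 (by positivity)
  have W0 : 0 ≤ W := (abs_nonneg _).trans (w 0).2
  have E0 : 0 ≤ ∫ x, X.K.cut 3 (X.K.τ x) * en X.G.F c X.K.τ x ∂X.G.F.μ :=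
    integral_nonneg fun x => mul_nonneg ct_mem.1 (en_nonneg _ _ _ _)
  have b1 : (16 * (vY D * C) + 1)⁻¹ * (vY D * C) ≤ 1 / 16 := by
    rw [inv_mul_le_iff₀ (by linarith)]; linarith
  nlinarith [mul_le_mul_of_nonneg_right b1 E0, mul_nonneg W0 e0, one_le_cA,
    mul_nonneg (zero_le_one.trans one_le_cA) e0]

end Crest.Agent.X212.Dgr80.Uk
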